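import Mathlib
import Crest.Prelude.Def_LipschitzFree

/-!
# Row 115, S0154: a countable uniformly discrete metric space whose free space has AP but not BAP

Definitions.  `α` = finite type of generators; a *letter* is an element of `α × Bool` (as in
`FreeGroup α`), `invL` the inverse letter, a *word* is a list of letters.
A `PA α` is a finite partial action of the free group: at the point `a` the letter `s` can be read if
`step a s = some b`, which leads to the point `b`; then `s⁻¹` can be read at `b` and leads to `a`.
-/

set_option autoImplicit false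

namespace Crest.Agent.FS

open FreeGroup Finset

/-- inverse letter -/
def invL {α : Type} (s : α × Bool) : α × Bool := (s.1, !s.2)

/-- finite partial actions of the free group on `α` -/
structure PA (α : Type) where
  V : Type
  ft : Fintype V
  de : DecidableEq V
  ne : Nonempty V
  step : V → α × Bool → Option V
  step_inv : ∀ a b s, step a s = some b → step b (invL s) = some a

attribute [instance] PA.ft PA.de PA.ne

/-- the word `l` can be read at `a` and leads to `b` -/
def PA.Reads {α : Type} (A : PA α) : A.V → List (α × Bool) → A.V → Prop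
  | a, [], b => a = b
  | a, s :: l, b => ∃ c, A.step a s = some c ∧ A.Reads c l b

/-- A 4-regular partial action: the letters that can be read at `a` are the four letters `lab a e`,
`e : Bool × Bool`, leading to `nb a e`; the reverse of the direction `e` at `a` is the direction
`invL e` at `nb a e`. -/
structure Reg {α : Type} (A : PA α) where
  nb : A.V → Bool × Bool → A.V
  lab : A.V → Bool × Bool → α × Bool
  step_lab : ∀ a e, A.step a (lab a e) = some (nb a e)
  nb_inv : ∀ a e, nb (nb a e) (invL e) = a
  lab_inv : ∀ a e, lab (nb a e) (invL e) = invL (lab a e)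
  lab_inj : ∀ a, Function.Injective (lab a)
  complete : ∀ a b s, A.step a s = some b → ∃ e, s = lab a e

/-- The universal sequence of partial actions: `A 0` is one point where nothing can be read, the others
are 4-regular, and for every `j` there is `m` such that no reduced word of length `m` can be read
both in `A (j+1)` and in some `A i`, `i ≤ j`. -/
structure Fam (α : Type) where
  A : ℕ → PA α
  zero_step : ∀ a s, (A 0).step a s = none
  zero_sub : Subsingleton (A 0).V
  reg : ∀ j, Reg (A (j + 1))
  sep : ∀ j, ∃ m, ∀ i ≤ j, ∀ l : List (α × Bool), IsReduced l → l.length = m →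
    ∀ a b c d, (A i).Reads a l b → (A (j + 1)).Reads c l d → False

/-- the point of `A 0` -/
noncomputable def Fam.pt {α : Type} (F : Fam α) : (F.A 0).V := Classical.choice (F.A 0).ne

/-- the points of a piece -/
abbrev Pt {α : Type} (F : Fam α) (G : Type) : Type := Σ i : ℕ, (F.A i).V × G

/-- the terminal `t_g` -/
noncomputable def star {α : Type} (F : Fam α) {G : Type} (g : G) : Pt F G := ⟨0, (F.pt, g)⟩

section piece
variable {α : Type} (F : Fam α) {G : Type} [Group G] (π : FreeGroup α →* G)

/-- `h` is `c`-Lipschitz on the piece with parameters `r, ρ` (base point value `0`) -/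
def Adm (r ρ : ℕ) (c : ℝ) (h : Pt F G → ℝ) : Prop :=
  (∀ x, |h x| ≤ c * ρ) ∧ (∀ x : Pt F G, |h x - h (star F x.2.2)| ≤ c * r) ∧
    ∀ (i : ℕ) (a b : (F.A i).V) (g : G) (s : α × Bool), (F.A i).step a s = some b →
      |h ⟨i, (a, g)⟩ - h ⟨i, (b, g * π (mk [s]))⟩| ≤ c

end piece

/-- classes of relative positions: `(a, l) ~ (a', l')` iff `l = L l'` with `L` readable from `a` to `a'`. -/
def clsRel {α : Type} (A : PA α) (x y : A.V × FreeGroup α) : Prop :=
  ∃ L : List (α × Bool), A.Reads x.1 L y.1 ∧ x.2 = mk L * y.2

/-- walks with directions `l` staying in `W` -/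
def Walk {V : Type} (nb : V → Bool × Bool → V) (W : V → Prop) : V → List (Bool × Bool) → Prop
  | v, [] => W v
  | v, e :: l => W v ∧ Walk nb W (nb v e) l

/-- cutoff -/
noncomputable def chi (ρ : ℕ) (n : ℕ) : ℝ := max 0 (1 - (n : ℝ) / ρ)

/-- labels along a walk in a 4-regular partial action -/
def Reg.word {α : Type} {A : PA α} (R : Reg A) : A.V → List (Bool × Bool) → List (α × Bool)
  | _, [] => []
  | a, e :: l => R.lab a e :: R.word (R.nb a e) l

/-- end point of a walk -/
def Reg.fin {α : Type} {A : PA α} (R : Reg A) : A.V → List (Bool × Bool) → A.V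
  | a, [] => a
  | a, e :: l => R.fin (R.nb a e) l

/-- classes of relative positions -/
def Cl {α : Type} (F : Fam α) : Type := Σ i : ℕ, Quot (clsRel (F.A i))

/-- the class of the point `z` with the relative word `l` -/
def cls {α : Type} {F : Fam α} {G : Type} (z : Pt F G) (l : FreeGroup α) : Cl F :=
  ⟨z.1, Quot.mk _ (z.2.1, l)⟩

/-- right multiplication -/
def act {α : Type} {F : Fam α} (γ : Cl F) (w : FreeGroup α) : Cl F :=
  ⟨γ.1, Quot.map (fun x : (F.A γ.1).V × FreeGroup α => (x.1, x.2 * w))
    (fun _ _ ⟨L, h1, h2⟩ => ⟨L, h1, by simp only [h2, mul_assoc]⟩) γ.2⟩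

@[simp] theorem act_cls {α : Type} {F : Fam α} {G : Type} (z : Pt F G) (l w : FreeGroup α) :
    act (cls z l) w = cls z (l * w) := rfl

open Classical in
/-- the ball of radius `n` of the free group -/
noncomputable def ball (α : Type) [Fintype α] [DecidableEq α] (n : ℕ) : Finset (FreeGroup α) :=
  if h : {w : FreeGroup α | w.norm ≤ n}.Finite then h.toFinset else ∅

section
variable {α : Type} [Fintype α] [DecidableEq α] {F : Fam α} {G : Type} [Group G]

open Classical in
/-- the mass of the class `γ` seen from `x` -/
noncomputable def mm (π : FreeGroup α →* G) (ρ : ℕ) (S : Finset (Pt F G))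
    (μ : Pt F G → Pt F G → ℝ) (x : Pt F G) (γ : Cl F) : ℝ :=
  ∑ z ∈ S, ∑ l ∈ ball α ρ, if z.2.2 * π l = x.2.2 ∧ cls z l = γ then μ x z * chi ρ l.norm else 0

open Classical in
/-- test functions: `ε` depends on the class only -/
noncomputable def tst (π : FreeGroup α →* G) (ρ : ℕ) (ε : Cl F → ℝ) (g : G) (z : Pt F G) : ℝ :=
  ∑ l ∈ ball α ρ, if z.2.2 * π l = g then ε (cls z l) * chi ρ l.norm else 0

end

/-- neighbours in (regular partial action × group) -/
def nbP {α : Type} {F : Fam α} {G : Type} [Group G] (π : FreeGroup α →* G) (j : ℕ)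
    (x : (F.A (j + 1)).V × G) (e : Bool × Bool) : (F.A (j + 1)).V × G :=
  ((F.reg j).nb x.1 e, x.2 * π (mk [(F.reg j).lab x.1 e]))

end Crest.Agent.FS
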