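import Crest.Agent.FS.Cstr
import Crest.Agent.FS.Defs

/-!
The space `P` (definitions), CHUNK SPACE (easy/medium): its properties.
-/

set_option autoImplicit false

namespace Crest.Agent.FS

open FreeGroup Crest.AnalysisR

/-- parameters of the piece `k` (`λ = k + 1`) -/
def rr (k : ℕ) : ℕ := 8 * (k + 1)
def rho (k : ℕ) : ℕ := 2 + 48 * (k + 1) ^ 2

/-- all the data -/
structure SpData (α : Type) [Fintype α] [DecidableEq α] where
  F : Fam α
  G : ℕ → Type
  grp : ∀ k, Group (G k)
  fin : ∀ k, Fintype (G k)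
  π : ∀ k, FreeGroup α →* G k
  girth : ∀ (k : ℕ) (w : FreeGroup α), w ≠ 1 → w.norm ≤ 2 * rho k + 2 → π k w ≠ 1

attribute [instance] SpData.grp SpData.fin

variable {α : Type} [Fintype α] [DecidableEq α] (D : SpData α)

/-- the points: a base point `none` and the pieces -/
abbrev SpData.M : Type := Option (Σ k : ℕ, Pt D.F (D.G k))

/-- the constraints -/
inductive SpData.EP : D.M → D.M → ℝ → Prop
  | base (k : ℕ) (x : Pt D.F (D.G k)) : SpData.EP (some ⟨k, x⟩) none (rho k)
  | lab (k : ℕ) (x : Pt D.F (D.G k)) :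
      SpData.EP (some ⟨k, x⟩) (some ⟨k, star D.F x.2.2⟩) (rr k)
  | step (k i : ℕ) (a b : (D.F.A i).V) (g : D.G k) (s : α × Bool)
      (h : (D.F.A i).step a s = some b) :
      SpData.EP (some ⟨k, ⟨i, (a, g)⟩⟩) (some ⟨k, ⟨i, (b, g * D.π k (FreeGroup.mk [s]))⟩⟩) 1

theorem SpData.EP_one_le (x y : D.M) (c : ℝ) (h : D.EP x y c) : 1 ≤ c := by
  cases h with
  | base k x =>
    have : 1 ≤ rho k := by unfold rho; omega
    exact_mod_cast this
  | lab k x =>
    have : 1 ≤ rr k := by unfold rr; omega
    exact_mod_cast this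
  | step k i a b g s h => exact le_refl _

private theorem SpData.bdd_aux (x : D.M) :
    ∃ C : ℝ, ∀ h : D.M → ℝ, Comp D.EP h → |h x - h none| ≤ C := by
  rcases x with _ | ⟨k, x⟩
  · exact ⟨0, fun h _ => by simp⟩
  · exact ⟨rho k, fun h hh => hh _ _ _ (SpData.EP.base k x)⟩

/-- both points are at distance at most `rho k` of the base point -/
theorem SpData.EP_bdd (x y : D.M) :
    ∃ C : ℝ, ∀ h : D.M → ℝ, Comp D.EP h → |h x - h y| ≤ C := by
  obtain ⟨C1, h1⟩ := D.bdd_aux x
  obtain ⟨C2, h2⟩ := D.bdd_aux y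
  refine ⟨C1 + C2, fun h hh => ?_⟩
  have e1 := h1 h hh
  have e2 := h2 h hh
  rw [abs_le] at *
  constructor <;> linarith [e1.1, e1.2, e2.1, e2.2]

/-- the constraints -/
def SpData.con : Con D.M := ⟨D.EP, D.EP_one_le, D.EP_bdd⟩

/-- the pointed metric space -/
noncomputable def SpData.P : PointedMetric := ⟨D.M, D.con.metric, none⟩

/-- extension by zero of a function on the piece `k` -/
noncomputable def SpData.ext (k : ℕ) (h : Pt D.F (D.G k) → ℝ) : D.M → ℝ
  | none => 0
  | some ⟨k', x⟩ => if e : k' = k then h (e ▸ x) else 0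

theorem SpData.ext_some (k : ℕ) (h : Pt D.F (D.G k) → ℝ) (x : Pt D.F (D.G k)) :
    D.ext k h (some ⟨k, x⟩) = h x := by
  simp [SpData.ext]

private theorem SpData.ext_some_ne (k : ℕ) (h : Pt D.F (D.G k) → ℝ) {k' : ℕ} (hk : k' ≠ k)
    (x : Pt D.F (D.G k')) : D.ext k h (some ⟨k', x⟩) = 0 := by
  simp [SpData.ext, hk]

private theorem SpData.ext_none (k : ℕ) (h : Pt D.F (D.G k) → ℝ) : D.ext k h none = 0 := rfl

theorem SpData.lip_ext (k : ℕ) (c : ℝ) (hc : 0 ≤ c) (h : Pt D.F (D.G k) → ℝ)
    (hh : Adm D.F (D.π k) (rr k) (rho k) c h) (x y : D.M) :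
    |D.ext k h x - D.ext k h y| ≤ c * D.con.d x y := by
  refine D.con.lip_of hc ?_ x y
  intro x y C hE
  obtain ⟨h1, h2, h3⟩ := hh
  change D.EP x y C at hE
  have hC : 0 ≤ c * C := mul_nonneg hc (zero_le_one.trans (D.EP_one_le _ _ _ hE))
  cases hE with
  | base k' x =>
    rw [D.ext_none]
    by_cases hk : k' = k
    · subst hk
      rw [D.ext_some, sub_zero]
      exact h1 x
    · rw [D.ext_some_ne k h hk]
      simpa using hC
  | lab k' x =>
    by_cases hk : k' = k
    · subst hk
      rw [D.ext_some, D.ext_some]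
      exact h2 x
    · rw [D.ext_some_ne k h hk, D.ext_some_ne k h hk]
      simpa using hC
  | step k' i a b g s hs =>
    by_cases hk : k' = k
    · subst hk
      rw [D.ext_some, D.ext_some, mul_one]
      exact h3 i a b g s hs
    · rw [D.ext_some_ne k h hk, D.ext_some_ne k h hk]
      simpa using hC

private theorem SpData.rho_le_d (k : ℕ) (x : Pt D.F (D.G k)) :
    (rho k : ℝ) ≤ D.con.d (some ⟨k, x⟩) none := by
  have hA : Adm D.F (D.π k) (rr k) (rho k) 1 (fun _ => (rho k : ℝ)) := by
    refine ⟨fun x => ?_, fun x => ?_, fun i a b g s _ => ?_⟩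
    · simp
    · simp
    · simp
  have := D.lip_ext k 1 zero_le_one _ hA (some ⟨k, x⟩) none
  rw [D.ext_some, D.ext_none, sub_zero, one_mul, abs_of_nonneg (Nat.cast_nonneg _)] at this
  exact this

/-- PROOF. Countable: sigma types of finite/countable types. Separated: `one_le_d`. Unbounded: the function `rho k` on the piece
`k`, zero elsewhere, is compatible, so points of the piece `k` are at distance `≥ rho k ≥ k` of the base point. Not
proper: the closed ball of radius `rho 0` around the base point contains the infinite set `{some ⟨0, ⟨i, (a, g)⟩⟩}` (one point for every `i`), whose points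
have distances `≥ 1`; it would be compact, so finite (discrete topology: a uniformly discrete subset of a
compact metric space is finite). -/
theorem SpData.props : D.P.IsCountableSeparatedUnboundedNonproper := by
  unfold PointedMetric.IsCountableSeparatedUnboundedNonproper
  let : MetricSpace D.P.M := D.P.metric
  have hsep : ∀ x y : D.P.M, x ≠ y → 1 ≤ dist x y := fun x y hxy => D.con.one_le_d hxy
  refine ⟨?_, hsep, ?_, ?_⟩
  · change Countable (Option (Σ k : ℕ, Pt D.F (D.G k)))
    infer_instance
  · intro hb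
    obtain ⟨C, hC⟩ := Metric.isBounded_iff.1 hb
    obtain ⟨k, hk⟩ := exists_nat_gt C
    have h1 := D.rho_le_d k (star D.F 1)
    have h2 : D.con.d (some ⟨k, star D.F 1⟩) none ≤ C :=
      hC (Set.mem_univ (some ⟨k, star D.F 1⟩ : D.M)) (Set.mem_univ (none : D.M))
    have h3 : (k : ℝ) ≤ rho k := by
      have : k ≤ rho k := by unfold rho; nlinarith
      exact_mod_cast this
    linarith
  · intro hp
    have hcomp : IsCompact (Metric.closedBall (none : D.M) (rho 0) : Set D.P.M) :=
      isCompact_closedBall _ _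
    have hfin : (Metric.closedBall (none : D.M) (rho 0) : Set D.P.M).Finite := by
      obtain ⟨t, ht, hcov⟩ := hcomp.elim_finite_subcover_image (b := Set.univ)
        (c := fun x : D.P.M => Metric.ball x 1) (fun x _ => Metric.isOpen_ball)
        (fun x _ => Set.mem_biUnion (Set.mem_univ x) (Metric.mem_ball_self one_pos))
      refine hcov.1.subset fun x hx => ?_
      obtain ⟨y, hy, hxy⟩ := Set.mem_iUnion₂.1 (hcov.2 hx)
      have : x = y := by
        by_contra hne
        have h1 := hsep x y hne
        have h2 := Metric.mem_ball.1 hxy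
        linarith
      rw [this]; exact hy
    have hinj : Function.Injective
        (fun i : ℕ => (some ⟨0, ⟨i, (Classical.choice (D.F.A i).ne, 1)⟩⟩ : D.M)) := by
      intro i j hij
      simp only [Option.some.injEq, Sigma.mk.injEq, heq_eq_eq, true_and] at hij
      exact hij.1
    refine Set.infinite_of_injective_forall_mem hinj (fun i => ?_) hfin
    exact D.con.d_le_of_E (SpData.EP.base 0 _)

end Crest.Agent.FS
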