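import Crest.Agent.FS.Free
import Crest.Agent.FS.Space

/-!
CHUNK AP (medium): the approximation property.
-/

set_option autoImplicit false

namespace Crest.Agent.FS

open Crest.AnalysisR

private theorem ap_cover (P : PointedMetric) {K : Set P.FreeSpace} (hK : IsCompact K) {δ : ℝ}
    (hδ : 0 < δ) : ∃ A : Finset (P.M →₀ ℝ), ∀ y ∈ K, ∃ a ∈ A, ‖y - mol P a‖ ≤ δ := by
  classical
  obtain ⟨t, -, htf, ht⟩ := hK.finite_cover_balls (half_pos hδ)
  choose g hg using fun u : P.FreeSpace => mol_dense P u (half_pos hδ)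
  refine ⟨htf.toFinset.image g, fun y hy => ?_⟩
  have h1 := ht hy
  simp only [Set.mem_iUnion, Metric.mem_ball] at h1
  obtain ⟨c, hc, hyc⟩ := h1
  refine ⟨g c, Finset.mem_image_of_mem _ (htf.mem_toFinset.2 hc), ?_⟩
  have h2 := hg c
  rw [dist_eq_norm] at hyc
  have h3 : y - mol P (g c) = (y - c) + (c - mol P (g c)) := by abel
  rw [h3]
  refine (norm_add_le _ _).trans ?_
  linarith

private theorem ap_mult_mol (P : PointedMetric) {w : P.M → ℝ}
    {R : P.FreeSpace →L[ℝ] P.FreeSpace} (hR : ∀ x, R (del P x) = w x • del P x)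
    (a : P.M →₀ ℝ) : R (mol P a) = ∑ x ∈ a.support, a x • (w x • del P x) := by
  rw [mol_eq_sum, map_sum]
  refine Finset.sum_congr rfl fun x _ => ?_
  rw [map_smul, hR]

open Classical in
/-- PROOF. Let `K` be compact, `ε > 0`. Cover `K` by finitely many balls of radius `δ = ε / 8` with centres `mol a_i` (`mol_dense`), `S` = union of the supports; `U`, `C`
from the hypothesis (WLOG `C ≥ 1`); `R` = multiplication by the indicator function of `U` (`exists_mult`, norm `≤ 1`). Cover `K` by finitely many balls of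
radius `δ' = ε / (8 (C + 2))` with centres `mol b_i`, `T` = union of their supports intersected with `U`, `Q` = multiplication by the indicator function of `T`, norm
`≤ C`, of finite rank (range in the span of the `del s`, `s ∈ T`: true on molecules, the span is closed). For `y ∈ K`:
`‖Q y - R y‖ ≤ ‖Q (y - mol b_i)‖ + ‖R (mol b_i - y)‖ ≤ (C + 1) δ'` as `Q = R` on `mol b_i`, `‖R y - y‖ ≤ 2 δ` as `R = id` on `mol a_i`. -/
theorem hasAP_of (P : PointedMetric)
    (h : ∀ S : Finset P.M, ∃ (U : Set P.M) (C : ℝ), ↑S ⊆ U ∧ 0 ≤ C ∧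
      (∀ f, Lp P 1 f → Lp P 1 (fun x => (if x ∈ U then 1 else 0) * f x)) ∧
      ∀ T : Finset P.M, ↑T ⊆ U → ∀ f, Lp P 1 f →
        Lp P C (fun x => (if x ∈ T then 1 else 0) * f x)) : HasAP P.FreeSpace := by
  intro K hK ε hε
  obtain ⟨A, hA⟩ := ap_cover P hK (δ := ε / 4) (by linarith)
  obtain ⟨U, C, hSU, hC, hU, hT⟩ := h (A.biUnion fun a => a.support)
  obtain ⟨R, hRn, hR⟩ := exists_mult P (C := 1) zero_le_one (fun x => if x ∈ U then 1 else 0) hU
  obtain ⟨B, hB⟩ := ap_cover P hK (δ := ε / (2 * (C + 1))) (by positivity)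
  set T : Finset P.M := (B.biUnion fun a => a.support).filter (fun x => x ∈ U) with hTdef
  have hTU : (T : Set P.M) ⊆ U := by
    intro x hx
    have hx' : x ∈ T := hx
    rw [hTdef, Finset.mem_filter] at hx'
    exact hx'.2
  obtain ⟨Q, hQn, hQ⟩ := exists_mult P (C := C) hC (fun x => if x ∈ T then 1 else 0) (hT T hTU)
  refine ⟨Q, ?_, ?_⟩
  · -- finite rank
    set V : Submodule ℝ P.FreeSpace := Submodule.span ℝ ((T.image (del P) : Finset P.FreeSpace) : Set P.FreeSpace) with hV
    have hVf : FiniteDimensional ℝ V := FiniteDimensional.span_finset ℝ _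
    have hVc : IsClosed (V : Set P.FreeSpace) := Submodule.closed_of_finiteDimensional V
    have hmem : ∀ u, Q u ∈ V := by
      intro u
      have hcl : u ∈ closure (Set.range (mol P)) := by
        rw [Metric.mem_closure_iff]
        intro η hη
        obtain ⟨a, ha⟩ := mol_dense P u (half_pos hη)
        refine ⟨mol P a, ⟨a, rfl⟩, ?_⟩
        rw [dist_eq_norm]
        linarith
      have hsub : closure (Set.range (mol P)) ⊆ Q ⁻¹' (V : Set P.FreeSpace) := by
        refine closure_minimal ?_ (hVc.preimage Q.continuous)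
        rintro _ ⟨a, rfl⟩
        show Q (mol P a) ∈ V
        rw [ap_mult_mol P hQ]
        refine Submodule.sum_mem _ fun x _ => Submodule.smul_mem _ _ ?_
        by_cases hx : x ∈ T
        · rw [if_pos hx, one_smul]
          exact Submodule.subset_span (Finset.mem_coe.2 (Finset.mem_image_of_mem _ hx))
        · rw [if_neg hx, zero_smul]
          exact Submodule.zero_mem _
      exact hsub hcl
    have hle : LinearMap.range Q.toLinearMap ≤ V := by
      rintro _ ⟨u, rfl⟩
      exact hmem u
    exact Submodule.finiteDimensional_of_le hle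
  · intro y hy
    obtain ⟨a, ha, hya⟩ := hA y hy
    obtain ⟨b, hb, hyb⟩ := hB y hy
    have hRa : R (mol P a) = mol P a := by
      rw [ap_mult_mol P hR, mol_eq_sum]
      refine Finset.sum_congr rfl fun x hx => ?_
      have hxU : x ∈ U := hSU (Finset.mem_coe.2 (Finset.mem_biUnion.2 ⟨a, ha, hx⟩))
      rw [if_pos hxU, one_smul]
    have hQb : Q (mol P b) = R (mol P b) := by
      rw [ap_mult_mol P hQ, ap_mult_mol P hR]
      refine Finset.sum_congr rfl fun x hx => ?_
      by_cases hxU : x ∈ U
      · have hxT : x ∈ T := by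
          rw [hTdef, Finset.mem_filter]
          exact ⟨Finset.mem_biUnion.2 ⟨b, hb, hx⟩, hxU⟩
        rw [if_pos hxU, if_pos hxT]
      · have hxT : x ∉ T := fun hxT => hxU (hTU hxT)
        rw [if_neg hxU, if_neg hxT]
    have e1 : Q y - y = Q (y - mol P b) - R (y - mol P b) + (R (y - mol P a) - (y - mol P a)) := by
      simp only [map_sub, hRa, hQb]
      abel
    have n1 : ‖Q (y - mol P b)‖ ≤ C * (ε / (2 * (C + 1))) :=
      (Q.le_opNorm _).trans (mul_le_mul hQn hyb (norm_nonneg _) hC)
    have n2 : ‖R (y - mol P b)‖ ≤ 1 * (ε / (2 * (C + 1))) :=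
      (R.le_opNorm _).trans (mul_le_mul hRn hyb (norm_nonneg _) zero_le_one)
    have n3 : ‖R (y - mol P a)‖ ≤ 1 * (ε / 4) :=
      (R.le_opNorm _).trans (mul_le_mul hRn hya (norm_nonneg _) zero_le_one)
    have n4 : C * (ε / (2 * (C + 1))) + 1 * (ε / (2 * (C + 1))) = ε / 2 := by
      field_simp
    rw [e1]
    calc ‖Q (y - mol P b) - R (y - mol P b) + (R (y - mol P a) - (y - mol P a))‖
        ≤ ‖Q (y - mol P b) - R (y - mol P b)‖ + ‖R (y - mol P a) - (y - mol P a)‖ := norm_add_le _ _
      _ ≤ (‖Q (y - mol P b)‖ + ‖R (y - mol P b)‖) + (‖R (y - mol P a)‖ + ‖y - mol P a‖) :=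
        add_le_add (norm_sub_le _ _) (norm_sub_le _ _)
      _ ≤ ε := by linarith

variable {α : Type} [Fintype α] [DecidableEq α] (D : SpData α)

/-- PROOF. `U` = base point and the pieces `k < N`, where `N` is larger than the pieces meeting `S`; `C = 2 * rho N`. The
functions are compared along the constraints (`Con.lip_of`; conversely a `1`-Lipschitz function satisfies the constraints, `Con.d_le_of_E`);
a `1`-Lipschitz function vanishing at the base point is bounded by `rho k` on the piece `k`, and all the constants of the constraints are `≥ 1`. -/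
theorem SpData.hasAP : HasAP D.P.FreeSpace := by
  classical
  refine hasAP_of D.P fun S => ?_
  -- pieces
  let pc : D.M → ℕ := fun x => x.elim 0 (fun y => y.1)
  let N : ℕ := S.sup pc + 1
  have hrho : ∀ {k l : ℕ}, k ≤ l → rho k ≤ rho l := by
    intro k l hkl
    unfold rho
    have : (k + 1) ^ 2 ≤ (l + 1) ^ 2 := Nat.pow_le_pow_left (by omega) 2
    omega
  -- facts on `Lp`
  have hE : ∀ f, Lp D.P 1 f → ∀ x y c, D.EP x y c → |f x - f y| ≤ c := by
    intro f hf x y c hxy
    have h1 := hf.2 x y
    have h2 : D.P.metric.dist x y ≤ c := D.con.d_le_of_E hxy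
    rw [one_mul] at h1
    exact h1.trans h2
  have hb : ∀ f, Lp D.P 1 f → ∀ (k : ℕ) (x : Pt D.F (D.G k)), |f (some ⟨k, x⟩)| ≤ rho k := by
    intro f hf k x
    have h1 := hE f hf _ _ _ (SpData.EP.base k x)
    have h2 : f (none : D.M) = 0 := hf.1
    rw [h2, sub_zero] at h1
    exact h1
  obtain ⟨U, hU⟩ : ∃ U : Set D.M, ∀ x, x ∈ U ↔ pc x < N := ⟨{x | pc x < N}, fun _ => Iff.rfl⟩
  refine ⟨U, 2 * rho N, ?_, by positivity, ?_, ?_⟩
  · intro x hx
    refine (hU x).2 ?_
    exact Nat.lt_succ_of_le (Finset.le_sup (f := pc) (Finset.mem_coe.1 hx))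
  · intro f hf
    have h0 : f (none : D.M) = 0 := hf.1
    refine ⟨?_, ?_⟩
    · show (if (none : D.M) ∈ U then (1 : ℝ) else 0) * f (none : D.M) = 0
      rw [h0, mul_zero]
    · intro x y
      refine D.con.lip_of (f := fun x => (if x ∈ U then (1 : ℝ) else 0) * f x)
        zero_le_one ?_ x y
      intro x y c hxy
      have h1 := hE f hf x y c hxy
      have hc : 0 ≤ c := (abs_nonneg _).trans h1
      rw [one_mul]
      have key : (x ∈ U ↔ y ∈ U) ∨ y = none := by
        rw [hU, hU]
        cases hxy with
        | base k x => exact Or.inr rfl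
        | lab k x => exact Or.inl Iff.rfl
        | step k i a b g s h => exact Or.inl Iff.rfl
      rcases key with key | key
      · by_cases hx : x ∈ U
        · have hy := key.1 hx
          simp only [hx, hy, if_true, one_mul]
          exact h1
        · have hy : ¬ y ∈ U := fun h => hx (key.2 h)
          simp only [hx, hy, if_false, zero_mul, sub_zero, abs_zero]
          exact hc
      · subst key
        rw [h0, sub_zero] at h1
        show |(if x ∈ U then (1 : ℝ) else 0) * f x -
          (if (none : D.M) ∈ U then (1 : ℝ) else 0) * f (none : D.M)| ≤ c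
        rw [h0, mul_zero, sub_zero]
        split_ifs
        · rw [one_mul]; exact h1
        · rw [zero_mul, abs_zero]; exact hc
  · intro T hT f hf
    have h0 : f (none : D.M) = 0 := hf.1
    refine ⟨?_, ?_⟩
    · show (if (none : D.M) ∈ T then (1 : ℝ) else 0) * f (none : D.M) = 0
      rw [h0, mul_zero]
    · intro x y
      refine D.con.lip_of (f := fun x => (if x ∈ T then (1 : ℝ) else 0) * f x)
        (by positivity) ?_ x y
      intro x y c hxy
      have hc : 1 ≤ c := D.EP_one_le x y c hxy
      have hbd : ∀ z : D.M, |(if z ∈ T then (1 : ℝ) else 0) * f z| ≤ rho N := by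
        intro z
        split_ifs with hz
        · rw [one_mul]
          rcases z with _ | ⟨k, z⟩
          · rw [h0, abs_zero]; positivity
          · have hk : k < N := (hU _).1 (hT (Finset.mem_coe.2 hz))
            exact (hb f hf k z).trans (by exact_mod_cast hrho hk.le)
        · rw [zero_mul, abs_zero]; positivity
      have h1 := hbd x
      have h2 := hbd y
      have h3 : |(if x ∈ T then (1 : ℝ) else 0) * f x - (if y ∈ T then (1 : ℝ) else 0) * f y| ≤
          2 * rho N := by
        refine (abs_sub _ _).trans ?_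
        linarith
      refine h3.trans ?_
      have : (0 : ℝ) ≤ 2 * rho N := by positivity
      nlinarith

end Crest.Agent.FS
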