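import Crest.Agent.FS.Defs

/-!
CHUNK BALL (very easy): balls of the free group are finite (`List.finite_length_le`, `toWord_injective`).
-/

set_option autoImplicit false

namespace Crest.Agent.FS

open FreeGroup

variable {α : Type} [Fintype α] [DecidableEq α]

theorem ball_finite (n : ℕ) : {w : FreeGroup α | w.norm ≤ n}.Finite := by
  have h := List.finite_length_le (α × Bool) n
  exact (h.preimage (f := toWord) toWord_injective.injOn).subset (fun w hw => hw)

theorem mem_ball {n : ℕ} {w : FreeGroup α} : w ∈ ball α n ↔ w.norm ≤ n := by
  unfold ball
  rw [dif_pos (ball_finite n)]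
  simp

end Crest.Agent.FS
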