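import Crest.Agent.FS.Defs

/-!
CHUNK LEAF (medium): isoperimetric inequality in 4-regular graphs without long reduced walks.
-/

set_option autoImplicit false

namespace Crest.Agent.FS

open FreeGroup Finset

private theorem leaf_invL_invL {α : Type} (e : α × Bool) : invL (invL e) = e := by
  simp [invL]

private theorem walk_start {V : Type} {nb : V → Bool × Bool → V} {W : V → Prop} {v : V}
    {l : List (Bool × Bool)} (h : Walk nb W v l) : W v := by
  cases l with
  | nil => exact h
  | cons e l => exact h.1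

private theorem walk_mono {V : Type} {nb : V → Bool × Bool → V} {W W' : V → Prop}
    (hW : ∀ v, W v → W' v) : ∀ {v : V} {l : List (Bool × Bool)}, Walk nb W v l → Walk nb W' v l
  | _, [], h => hW _ h
  | _, _ :: _, h => ⟨hW _ h.1, walk_mono hW h.2⟩

/-- long reduced walks exist if there is no leaf -/
private theorem exists_walk {V : Type} (nb : V → Bool × Bool → V)
    (hinv : ∀ v e, nb (nb v e) (invL e) = v) (W : V → Prop) (v₀ : V) (hv₀ : W v₀)
    (hno : ∀ v, W v → ∀ e₀, ∃ e, W (nb v e) ∧ e ≠ e₀) (n : ℕ) :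
    ∃ v l, IsReduced l ∧ l.length = n ∧ Walk nb W v l := by
  induction n with
  | zero => exact ⟨v₀, [], IsReduced.nil, rfl, hv₀⟩
  | succ n ih =>
    obtain ⟨v, l, h1, h2, h3⟩ := ih
    cases l with
    | nil =>
      obtain ⟨e, he, -⟩ := hno v h3 (true, true)
      refine ⟨nb v e, [invL e], IsReduced.singleton, by simpa using h2.symm, he, ?_⟩
      show W (nb (nb v e) (invL e))
      rw [hinv]
      exact h3
    | cons d l =>
      obtain ⟨e, he, hne⟩ := hno v h3.1 d
      refine ⟨nb v e, invL e :: d :: l, ?_, by simpa using h2, he, ?_⟩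
      · rw [isReduced_cons_cons]
        refine ⟨?_, h1⟩
        intro hh
        have hh' : e.1 = d.1 := hh
        show (!e.2) = d.2
        have : e.2 ≠ d.2 := fun h' => hne (Prod.ext hh' h')
        cases he2 : e.2 <;> cases hd2 : d.2 <;> simp_all
      · rw [hinv]
        exact h3

open Classical in
/-- PROOF. Induction on `W.card`. If `W` is nonempty take a reduced walk inside `W` of maximal length (nonempty lists `l` with
`Walk nb (· ∈ W) v l`, lengths `< K`; if even length 0.. is maximal, any vertex of `W` is isolated); reversing it, there are `v₀ ∈ W` and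
at most one direction `e` with `nb v₀ e ∈ W` (if `e ≠ e'` are two such directions, `v₀` = end of the walk, last direction `d`,
then one of them is not `invL d` and extends the walk). Remove `v₀`: the terms `(v₀, e)` and `(nb v₀ e, invL e)` are at most
`f v₀` each, at most one each. -/
theorem leaf_sum {V : Type} (nb : V → Bool × Bool → V)
    (hinv : ∀ v e, nb (nb v e) (invL e) = v) (f : V → ℝ) (hf : ∀ v, 0 ≤ f v) (K : ℕ)
    (W : Finset V)
    (hW : ∀ v l, IsReduced l → l.length = K → ¬ Walk nb (fun v => v ∈ W) v l) :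
    ∑ v ∈ W, ∑ e : Bool × Bool, (if nb v e ∈ W then min (f v) (f (nb v e)) else 0) ≤
      2 * ∑ v ∈ W, f v := by
  induction W using Finset.strongInduction with
  | H W ih =>
    rcases W.eq_empty_or_nonempty with rfl | ⟨w, hw⟩
    · simp
    · -- a leaf
      have hleaf : ∃ v₀ ∈ W, ∃ e₀, ∀ e, nb v₀ e ∈ W → e = e₀ := by
        by_contra hcon
        push Not at hcon
        obtain ⟨v, l, h1, h2, h3⟩ := exists_walk nb hinv (fun v => v ∈ W) w hw
          (fun v hv e₀ => by
            obtain ⟨e, he, hne⟩ := hcon v hv e₀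
            exact ⟨e, he, hne⟩) K
        exact hW v l h1 h2 h3
      obtain ⟨v₀, hv₀, e₀, he₀⟩ := hleaf
      have hsub : W.erase v₀ ⊂ W := Finset.erase_ssubset hv₀
      have ih' := ih (W.erase v₀) hsub (fun v l h1 h2 h3 =>
        hW v l h1 h2 (walk_mono (fun v hv => Finset.mem_of_mem_erase hv) h3))
      rw [← Finset.add_sum_erase W _ hv₀, ← Finset.add_sum_erase W f hv₀]
      -- the terms at `v₀`
      have t1 : ∑ e : Bool × Bool, (if nb v₀ e ∈ W then min (f v₀) (f (nb v₀ e)) else 0) ≤
          f v₀ := by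
        calc _ ≤ ∑ e : Bool × Bool, (if e = e₀ then f v₀ else 0) := by
              refine Finset.sum_le_sum fun e _ => ?_
              by_cases h : nb v₀ e ∈ W
              · rw [if_pos h, if_pos (he₀ e h)]
                exact min_le_left _ _
              · rw [if_neg h]
                split_ifs
                · exact hf v₀
                · exact le_rfl
          _ = f v₀ := by simp
      have t2 : ∑ v ∈ W.erase v₀, ∑ e : Bool × Bool,
          (if nb v e ∈ W then min (f v) (f (nb v e)) else 0) ≤
          ∑ v ∈ W.erase v₀, ∑ e : Bool × Bool,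
            (if nb v e ∈ W.erase v₀ then min (f v) (f (nb v e)) else 0) +
          ∑ v ∈ W.erase v₀, ∑ e : Bool × Bool, (if nb v e = v₀ then f v₀ else 0) := by
        rw [← Finset.sum_add_distrib]
        refine Finset.sum_le_sum fun v _ => ?_
        rw [← Finset.sum_add_distrib]
        refine Finset.sum_le_sum fun e _ => ?_
        by_cases h : nb v e = v₀
        · rw [if_pos h]
          have h' : nb v e ∉ W.erase v₀ := by simp [h]
          rw [if_neg h', zero_add]
          split_ifs
          · rw [h]; exact min_le_right _ _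
          · exact hf v₀
        · rw [if_neg h, add_zero]
          have h' : nb v e ∈ W.erase v₀ ↔ nb v e ∈ W := by simp [h]
          simp only [h', le_refl]
      have t3 : ∑ v ∈ W.erase v₀, ∑ e : Bool × Bool, (if nb v e = v₀ then f v₀ else 0) ≤
          f v₀ := by
        calc _ ≤ ∑ v ∈ W.erase v₀, ∑ e : Bool × Bool,
              (if v = nb v₀ e₀ then (if e = invL e₀ then f v₀ else 0) else 0) := by
              refine Finset.sum_le_sum fun v hv => Finset.sum_le_sum fun e _ => ?_
              by_cases h : nb v e = v₀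
              · have h1 : nb v₀ (invL e) = v := by rw [← h, hinv]
                have h2 : invL e = e₀ := he₀ _ (by rw [h1]; exact Finset.mem_of_mem_erase hv)
                have h3 : e = invL e₀ := by rw [← h2, leaf_invL_invL]
                have h4 : v = nb v₀ e₀ := by rw [← h2, h1]
                rw [if_pos h, if_pos h4, if_pos h3]
              · rw [if_neg h]
                split_ifs
                · exact hf v₀
                · exact le_rfl
                · exact le_rfl
          _ = ∑ v ∈ W.erase v₀, (if v = nb v₀ e₀ then f v₀ else 0) := by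
              refine Finset.sum_congr rfl fun v _ => ?_
              split_ifs
              · simp
              · simp
          _ ≤ f v₀ := by
              rw [Finset.sum_ite_eq']
              split_ifs
              · exact le_rfl
              · exact hf v₀
      linarith

/-- PROOF. `V = X × Q`, `nb (x, q) e = (nbx x e, nbq x e q)`, `W` = the support of `f` (inside `univ ×ˢ C`), `leaf_sum`. For each `(x, e)`:
`∑_{q ∈ C} |f x q - f x' q'| = ∑_{q ∈ C} (f x q + f x' q' - 2 min)`, `x' = nbx x e`, `q' = nbq x e q`, and `∑_{q ∈ C} f x' q' = ∑_{q ∈ C} f x' q` (`hC`, `hC'`: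
`nbq x e` is a bijection with inverse `nbq x' (invL e)`, both sums are the sum over the whole support of `f x'`), and for fixed `e` the map `x ↦ nbx x e` is a
bijection of `X`. Sum over `x` and the 4 directions: `8 ∑ f - 2 ∑ min ≥ 8 ∑ f - 4 ∑ f`. -/
theorem iso_sum {X Q : Type} [Fintype X] (nbx : X → Bool × Bool → X)
    (nbq : X → Bool × Bool → Q → Q) (hx : ∀ x e, nbx (nbx x e) (invL e) = x)
    (hq : ∀ x e q, nbq (nbx x e) (invL e) (nbq x e q) = q)
    (f : X → Q → ℝ) (hf : ∀ x q, 0 ≤ f x q) (C : Finset Q) (hC : ∀ x q, f x q ≠ 0 → q ∈ C)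
    (hC' : ∀ x e q, f (nbx x e) (nbq x e q) ≠ 0 → q ∈ C) (K : ℕ)
    (hwalk : ∀ (v : X × Q) (l : List (Bool × Bool)), IsReduced l → l.length = K →
      ¬ Walk (fun (v : X × Q) e => (nbx v.1 e, nbq v.1 e v.2)) (fun v => f v.1 v.2 ≠ 0) v l) :
    4 * ∑ x, ∑ q ∈ C, f x q ≤
      ∑ x, ∑ e : Bool × Bool, ∑ q ∈ C, |f x q - f (nbx x e) (nbq x e q)| := by
  classical
  set nb : X × Q → Bool × Bool → X × Q := fun v e => (nbx v.1 e, nbq v.1 e v.2) with hnb
  set W : Finset (X × Q) := ((univ : Finset X) ×ˢ C).filter (fun v => f v.1 v.2 ≠ 0) with hW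
  have hmem : ∀ v : X × Q, v ∈ W ↔ f v.1 v.2 ≠ 0 := by
    intro v
    rw [hW, mem_filter, mem_product]
    constructor
    · exact fun h => h.2
    · exact fun h => ⟨⟨mem_univ _, hC _ _ h⟩, h⟩
  have hinv : ∀ v e, nb (nb v e) (invL e) = v := by
    intro v e
    simp only [hnb]
    exact Prod.ext (hx _ _) (hq _ _ _)
  have hleaf := leaf_sum nb hinv (fun v => f v.1 v.2) (fun v => hf _ _) K W
    (fun v l h1 h2 h3 => hwalk v l h1 h2 (walk_mono (fun v hv => (hmem v).1 hv) h3))
  -- rewrite both sides of the leaf inequality as sums over `univ × C`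
  have hsumW : ∀ g : X × Q → ℝ, (∀ v, f v.1 v.2 = 0 → g v = 0) →
      ∑ v ∈ W, g v = ∑ x, ∑ q ∈ C, g (x, q) := by
    intro g hg
    rw [← Finset.sum_product', hW, Finset.sum_filter]
    refine Finset.sum_congr rfl fun v _ => ?_
    by_cases h : f v.1 v.2 = 0
    · rw [if_neg (by simpa using h), hg v h]
    · rw [if_pos h]
  have hL : ∑ v ∈ W, ∑ e : Bool × Bool,
      (if nb v e ∈ W then min (f v.1 v.2) (f (nb v e).1 (nb v e).2) else 0) =
      ∑ x, ∑ e : Bool × Bool, ∑ q ∈ C, min (f x q) (f (nbx x e) (nbq x e q)) := by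
    rw [hsumW]
    · refine Finset.sum_congr rfl fun x _ => ?_
      rw [Finset.sum_comm]
      refine Finset.sum_congr rfl fun e _ => Finset.sum_congr rfl fun q _ => ?_
      simp only [hnb]
      by_cases h : f (nbx x e) (nbq x e q) = 0
      · rw [if_neg (by rw [hmem]; simpa using h), h]
        exact (min_eq_right (hf _ _)).symm
      · rw [if_pos ((hmem _).2 h)]
    · intro v hv
      refine Finset.sum_eq_zero fun e _ => ?_
      split_ifs
      · rw [hv]
        exact min_eq_left (hf _ _)
      · rfl
  have hR : ∑ v ∈ W, f v.1 v.2 = ∑ x, ∑ q ∈ C, f x q := hsumW (fun v => f v.1 v.2) (fun _ h => h)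
  have hleaf' : ∑ x, ∑ e : Bool × Bool, ∑ q ∈ C, min (f x q) (f (nbx x e) (nbq x e q)) ≤
      2 * ∑ x, ∑ q ∈ C, f x q := by
    rw [← hL, ← hR]
    convert hleaf
  -- reindexing
  have hre : ∀ x e, ∑ q ∈ C, f (nbx x e) (nbq x e q) = ∑ q ∈ C, f (nbx x e) q := by
    intro x e
    have h1 : ∑ q ∈ C, f (nbx x e) (nbq x e q) =
        ∑ q ∈ C.filter (fun q => f (nbx x e) (nbq x e q) ≠ 0), f (nbx x e) (nbq x e q) := by
      rw [Finset.sum_filter]
      refine Finset.sum_congr rfl fun q _ => ?_
      by_cases h : f (nbx x e) (nbq x e q) = 0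
      · rw [if_neg (by simpa using h), h]
      · rw [if_pos h]
    have h2 : ∑ q ∈ C, f (nbx x e) q =
        ∑ q ∈ C.filter (fun q => f (nbx x e) q ≠ 0), f (nbx x e) q := by
      rw [Finset.sum_filter]
      refine Finset.sum_congr rfl fun q _ => ?_
      by_cases h : f (nbx x e) q = 0
      · rw [if_neg (by simpa using h), h]
      · rw [if_pos h]
    rw [h1, h2]
    have hback : ∀ q, nbq x e (nbq (nbx x e) (invL e) q) = q := by
      intro q
      have := hq (nbx x e) (invL e) q
      rwa [hx, leaf_invL_invL] at this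
    refine Finset.sum_nbij' (fun q => nbq x e q) (fun q => nbq (nbx x e) (invL e) q) ?_ ?_ ?_ ?_ ?_
    · intro q h
      rw [mem_filter] at h ⊢
      exact ⟨hC _ _ h.2, h.2⟩
    · intro q h
      rw [mem_filter] at h ⊢
      rw [hback]
      refine ⟨hC' x e _ ?_, h.2⟩
      rw [hback]
      exact h.2
    · intro q _
      exact hq x e q
    · intro q _
      exact hback q
    · intro q _
      rfl
  have hre2 : ∀ e : Bool × Bool, ∑ x, ∑ q ∈ C, f (nbx x e) q = ∑ x, ∑ q ∈ C, f x q := by
    intro e
    refine Fintype.sum_bijective (fun x => nbx x e) ?_ _ _ (fun x => rfl)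
    refine ⟨?_, ?_⟩
    · intro x y hxy
      have : nbx (nbx x e) (invL e) = nbx (nbx y e) (invL e) := by
        show nbx ((fun x => nbx x e) x) (invL e) = nbx ((fun x => nbx x e) y) (invL e)
        rw [hxy]
      rwa [hx, hx] at this
    · intro y
      refine ⟨nbx y (invL e), ?_⟩
      have := hx y (invL e)
      rwa [leaf_invL_invL] at this
  have habs : ∀ a b : ℝ, |a - b| = a + b - 2 * min a b := by
    intro a b
    rcases le_total a b with h | h
    · rw [min_eq_left h, abs_of_nonpos (by linarith)]
      ring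
    · rw [min_eq_right h, abs_of_nonneg (by linarith)]
      ring
  have hmain : ∑ x, ∑ e : Bool × Bool, ∑ q ∈ C, |f x q - f (nbx x e) (nbq x e q)| =
      8 * ∑ x, ∑ q ∈ C, f x q -
        2 * ∑ x, ∑ e : Bool × Bool, ∑ q ∈ C, min (f x q) (f (nbx x e) (nbq x e q)) := by
    simp only [habs, Finset.sum_sub_distrib, Finset.sum_add_distrib, ← Finset.mul_sum]
    have e1 : ∑ x, ∑ _e : Bool × Bool, ∑ q ∈ C, f x q = 4 * ∑ x, ∑ q ∈ C, f x q := by
      simp only [Finset.sum_const, Finset.card_univ, nsmul_eq_mul, ← Finset.mul_sum]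
      norm_num
    have e2 : ∑ x, ∑ e : Bool × Bool, ∑ q ∈ C, f (nbx x e) (nbq x e q) =
        4 * ∑ x, ∑ q ∈ C, f x q := by
      rw [Finset.sum_comm]
      simp only [hre, hre2, Finset.sum_const, Finset.card_univ, nsmul_eq_mul]
      norm_num
    rw [e1, e2]
    ring
  rw [hmain]
  linarith

end Crest.Agent.FS
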