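import Crest.Agent.FS.Defs

/-!
CHUNK WORD (easy/medium): cancellation in the free group.
-/

set_option autoImplicit false

namespace Crest.Agent.FS

open FreeGroup

variable {α : Type} [DecidableEq α]

theorem norm_mk_of_reduced {u : List (α × Bool)} (hu : IsReduced u) : (mk u).norm = u.length := by
  unfold FreeGroup.norm
  rw [toWord_mk, hu.reduce_eq]

theorem norm_mul_letter_le (w : FreeGroup α) (s : α × Bool) : (w * mk [s]).norm ≤ w.norm + 1 := by
  refine (norm_mul_le w (mk [s])).trans ?_
  have h : (mk [s] : FreeGroup α).norm ≤ 1 := norm_mk_le
  omega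

theorem norm_letter_mul_le (w : FreeGroup α) (s : α × Bool) : (mk [s] * w).norm ≤ w.norm + 1 := by
  refine (norm_mul_le (mk [s]) w).trans ?_
  have h : (mk [s] : FreeGroup α).norm ≤ 1 := norm_mk_le
  omega

omit [DecidableEq α] in
theorem mk_invL (s : α × Bool) : (mk [invL s] : FreeGroup α) = (mk [s])⁻¹ := by
  rw [inv_mk]
  rfl

private theorem reduce_suffix {u : List (α × Bool)} (hu : IsReduced u) (l : List (α × Bool)) :
    u.drop l.length <:+ reduce (l ++ u) := by
  induction l with
  | nil =>
    simp only [List.length_nil, List.drop_zero, List.nil_append]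
    rw [hu.reduce_eq]
  | cons s l ih =>
    have hA : u.drop (s :: l).length = (u.drop l.length).tail := by
      rw [List.length_cons, List.tail_drop]
    rw [hA, List.cons_append, reduce.cons]
    generalize u.drop l.length = A at ih ⊢
    generalize reduce (l ++ u) = y at ih ⊢
    cases y with
    | nil =>
      have : A = [] := List.suffix_nil.mp ih
      subst this
      exact List.nil_suffix
    | cons hd tl =>
      simp only
      split_ifs with h
      · obtain ⟨B, hB⟩ := ih
        cases B with
        | nil =>
          rw [List.nil_append] at hB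
          subst hB
          exact List.suffix_refl _
        | cons b B' =>
          rw [List.cons_append, List.cons.injEq] at hB
          rw [← hB.2]
          exact (List.tail_suffix A).trans (List.suffix_append B' A)
      · exact ((List.tail_suffix A).trans ih).trans (List.suffix_cons s _)

/-- PROOF: write `x = mk l`, `l = x.toWord`, induction on `l`: `mk (s :: l') * mk u = mk [s] * y`, and
`(mk [s] * y).toWord = reduce (s :: y.toWord)` is `s :: y.toWord` or the tail of `y.toWord` (`reduce.cons`,
`reduce_toWord`). If `u.drop n` is a suffix of `y.toWord` then `u.drop (n+1)` is a suffix of both. -/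
theorem toWord_suffix {u : List (α × Bool)} (hu : IsReduced u) (x : FreeGroup α) :
    u.drop x.norm <:+ (x * mk u).toWord := by
  rw [toWord_mul, toWord_mk, hu.reduce_eq]
  exact reduce_suffix hu x.toWord

/-- PROOF: from `toWord_suffix` by inversion (`toWord_inv`, `invRev`). -/
theorem toWord_prefix (x y : FreeGroup α) :
    x.toWord.take (x.norm - y.norm) <+: (x * y).toWord := by
  have h := toWord_suffix (isReduced_toWord (x := x⁻¹)) y⁻¹
  rw [mk_toWord, ← mul_inv_rev, toWord_inv, toWord_inv, norm_inv_eq] at h
  have h2 : (invRev x.toWord).drop y.norm = invRev (x.toWord.take (x.norm - y.norm)) := by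
    unfold invRev
    rw [List.drop_reverse, List.length_map, List.map_take]
    rfl
  rw [h2] at h
  obtain ⟨C, hC⟩ := h
  refine ⟨invRev C, ?_⟩
  have h3 := congrArg invRev hC
  rw [invRev_append, invRev_invRev, invRev_invRev] at h3
  exact h3

/-- PROOF: `toWord_suffix`: `u.drop n` is a suffix of `w = (x * mk u).toWord`; then `toWord_prefix`: the first
`w.length - n` letters of `w` form a prefix of the right hand side; these contain `(u.drop n).take (u.length - 2n)`. -/
theorem toWord_infix {u : List (α × Bool)} (hu : IsReduced u) (x y : FreeGroup α) (n : ℕ)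
    (hx : x.norm ≤ n) (hy : y.norm ≤ n) :
    (u.drop n).take (u.length - 2 * n) <:+: (x * mk u * y).toWord := by
  by_cases hlen : u.length ≤ 2 * n
  · rw [Nat.sub_eq_zero_of_le hlen, List.take_zero]
    exact List.nil_infix
  · have h1 := toWord_suffix hu x
    have h2 : u.drop n <:+ u.drop x.norm := List.drop_suffix_drop_left u hx
    obtain ⟨B, hB⟩ := h2.trans h1
    have h3 := toWord_prefix (x * mk u) y
    have hwl : (x * mk u).norm = B.length + (u.length - n) := by
      unfold FreeGroup.norm
      rw [← hB, List.length_append, List.length_drop]
    have h4 : (x * mk u).toWord.take (B.length + (u.length - 2 * n)) <+: (x * mk u * y).toWord := by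
      refine List.IsPrefix.trans ?_ h3
      apply List.take_prefix_take_left
      rw [hwl]
      omega
    rw [← hB, List.take_length_add_append] at h4
    exact (List.suffix_append B _).isInfix.trans h4.isInfix

end Crest.Agent.FS
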