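import Crest.Agent.FS.Read

/-!
CHUNK WORDS4 (easy): number of readable words in a 4-regular partial action; words along walks.
-/

set_option autoImplicit false

namespace Crest.Agent.FS

open FreeGroup

variable {α : Type} {A : PA α}

theorem Reg.word_length (R : Reg A) (a : A.V) (l : List (Bool × Bool)) :
    (R.word a l).length = l.length := by
  induction l generalizing a with
  | nil => rfl
  | cons e l ih => simp only [Reg.word, List.length_cons, ih]

theorem Reg.reads_word (R : Reg A) (a : A.V) (l : List (Bool × Bool)) :
    A.Reads a (R.word a l) (R.fin a l) := by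
  induction l generalizing a with
  | nil => rfl
  | cons e l ih => exact ⟨R.nb a e, R.step_lab a e, ih (R.nb a e)⟩

/-- PROOF: consecutive directions `e, e'` with `e' ≠ invL e`; the label of `invL e` at `nb a e` is
`invL (lab a e)`, so by `lab_inj` the label of `e'` is not `invL (lab a e)`. -/
theorem Reg.word_reduced (R : Reg A) (a : A.V) (l : List (Bool × Bool)) (hl : IsReduced l) :
    IsReduced (R.word a l) := by
  induction l generalizing a with
  | nil => exact IsReduced.nil
  | cons e l ih =>
    cases l with
    | nil => exact IsReduced.singleton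
    | cons e' l =>
      have h1 : (e.1 = e'.1 → e.2 = e'.2) ∧ IsReduced (e' :: l) := by
        have := hl
        unfold FreeGroup.IsReduced at this ⊢
        rwa [List.isChain_cons_cons] at this
      have h2 := ih (R.nb a e) h1.2
      have h3 : (R.lab a e).1 = (R.lab (R.nb a e) e').1 → (R.lab a e).2 = (R.lab (R.nb a e) e').2 := by
        intro h
        by_contra hne
        have h4 : R.lab (R.nb a e) e' = invL (R.lab a e) := by
          refine Prod.ext h.symm ?_
          show (R.lab (R.nb a e) e').2 = !(R.lab a e).2
          revert hne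
          cases (R.lab a e).2 <;> cases (R.lab (R.nb a e) e').2 <;> simp
        rw [← R.lab_inv a e] at h4
        have h5 : e' = invL e := R.lab_inj _ h4
        have h6 : e.1 = e'.1 := by rw [h5]; rfl
        have h7 := h1.1 h6
        rw [h5] at h7
        have h8 : e.2 = !e.2 := h7
        revert h8
        cases e.2 <;> simp
      show IsReduced (R.lab a e :: R.lab (R.nb a e) e' :: R.word (R.nb (R.nb a e) e') l)
      have h2' : IsReduced (R.lab (R.nb a e) e' :: R.word (R.nb (R.nb a e) e') l) := h2
      unfold FreeGroup.IsReduced at h2' ⊢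
      rw [List.isChain_cons_cons]
      exact ⟨h3, h2'⟩

/-- by `complete` -/
theorem Reg.exists_word (R : Reg A) {a b : A.V} {w : List (α × Bool)} (h : A.Reads a w b) :
    ∃ l : List (Bool × Bool), l.length = w.length ∧ w = R.word a l := by
  induction w generalizing a with
  | nil => exact ⟨[], rfl, rfl⟩
  | cons s w ih =>
    obtain ⟨c, h1, h2⟩ := h
    obtain ⟨l, hl, hw⟩ := ih h2
    obtain ⟨e, he⟩ := R.complete a c s h1
    have hc : c = R.nb a e := by
      have h3 := R.step_lab a e
      rw [← he, h1] at h3
      exact Option.some.inj h3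
    refine ⟨e :: l, by simp [hl], ?_⟩
    subst hc
    show s :: w = R.lab a e :: R.word (R.nb a e) l
    rw [← he, ← hw]

/-- PROOF: image of `(univ : Finset (A.V × (Fin m → Bool × Bool)))` under `(a, f) ↦ R.word a (List.ofFn f)`. -/
theorem readable_words [DecidableEq α] (R : Reg A) (m : ℕ) :
    ∃ T : Finset (List (α × Bool)), T.card ≤ Fintype.card A.V * 4 ^ m ∧
      ∀ (a b : A.V) (w : List (α × Bool)), A.Reads a w b → w.length = m → w ∈ T := by
  classical
  refine ⟨(Finset.univ : Finset (A.V × (Fin m → Bool × Bool))).image
    (fun p => R.word p.1 (List.ofFn p.2)), ?_, ?_⟩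
  · refine Finset.card_image_le.trans ?_
    rw [Finset.card_univ, Fintype.card_prod, Fintype.card_fun, Fintype.card_prod, Fintype.card_bool,
      Fintype.card_fin]
  · intro a b w h hw
    obtain ⟨l, hl, rfl⟩ := R.exists_word h
    rw [hw] at hl
    rw [Finset.mem_image]
    subst hl
    exact ⟨(a, fun i => l.get i), Finset.mem_univ _, by rw [List.ofFn_get]⟩

end Crest.Agent.FS
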