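import Crest.Agent.FS.Read
import Crest.Agent.FS.Word
import Crest.Agent.FS.Ball
import Crest.Agent.FS.Words4

/-!
CHUNK WALKS (medium): no long reduced walks in the support of the masses.
-/

set_option autoImplicit false

namespace Crest.Agent.FS

open FreeGroup Finset

variable {α : Type} [Fintype α] [DecidableEq α] {F : Fam α} {G : Type} [Group G]

theorem exists_of_mm_ne_zero {π : FreeGroup α →* G} {ρ : ℕ} {S : Finset (Pt F G)}
    {μ : Pt F G → Pt F G → ℝ} {x : Pt F G} {γ : Cl F} (h : mm π ρ S μ x γ ≠ 0) :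
    ∃ z ∈ S, ∃ l : FreeGroup α, l.norm ≤ ρ ∧ chi ρ l.norm ≠ 0 ∧ cls z l = γ := by
  unfold mm at h
  obtain ⟨z, hz, h1⟩ := Finset.exists_ne_zero_of_sum_ne_zero h
  obtain ⟨l, hl, h2⟩ := Finset.exists_ne_zero_of_sum_ne_zero h1
  rw [mem_ball] at hl
  split_ifs at h2 with h3
  · exact ⟨z, hz, l, hl, right_ne_zero_of_mul h2, h3.2⟩
  · exact absurd rfl h2

omit [Fintype α] [DecidableEq α] in
theorem act_one' (γ : Cl F) : act γ 1 = γ := by
  obtain ⟨i, q⟩ := γ
  induction q using Quot.ind with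
  | mk x =>
    obtain ⟨a, l⟩ := x
    show (⟨i, Quot.mk _ (a, l * 1)⟩ : Cl F) = ⟨i, Quot.mk _ (a, l)⟩
    rw [mul_one]

omit [Fintype α] [DecidableEq α] in
theorem act_act' (γ : Cl F) (w w' : FreeGroup α) : act (act γ w) w' = act γ (w * w') := by
  obtain ⟨i, q⟩ := γ
  induction q using Quot.ind with
  | mk x =>
    obtain ⟨a, l⟩ := x
    show (⟨i, Quot.mk _ (a, l * w * w')⟩ : Cl F) = ⟨i, Quot.mk _ (a, l * (w * w'))⟩
    rw [mul_assoc]

omit [Fintype α] [DecidableEq α] in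
theorem walk_end (π : FreeGroup α →* G) (j : ℕ) (W : ((F.A (j + 1)).V × G) × Cl F → Prop) :
    ∀ (l : List (Bool × Bool)) (v : ((F.A (j + 1)).V × G) × Cl F),
      Walk (fun (v : ((F.A (j + 1)).V × G) × Cl F) e =>
          (nbP π j v.1 e, act v.2 (mk [(F.reg j).lab v.1.1 e]))) W v l →
      ∃ y : (F.A (j + 1)).V × G, W (y, act v.2 (mk ((F.reg j).word v.1.1 l)))
  | [], v, h => by
    refine ⟨v.1, ?_⟩
    have e : act v.2 (mk ((F.reg j).word v.1.1 [])) = v.2 := act_one' v.2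
    rw [e]
    exact h
  | e :: l, v, h => by
    obtain ⟨-, h2⟩ := h
    obtain ⟨y, hy⟩ := walk_end π j W l _ h2
    refine ⟨y, ?_⟩
    dsimp only at hy
    rw [act_act', mul_mk] at hy
    exact hy

theorem no_walk (π : FreeGroup α →* G) (ρ : ℕ) (S : Finset (Pt F G)) (μ : Pt F G → Pt F G → ℝ)
    (j : ℕ) (hS : ∀ z ∈ S, z.1 ≤ j) :
    ∃ K : ℕ, ∀ (v : ((F.A (j + 1)).V × G) × Cl F) (l : List (Bool × Bool)), IsReduced l →
      l.length = K →
      ¬ Walk (fun (v : ((F.A (j + 1)).V × G) × Cl F) e =>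
          (nbP π j v.1 e, act v.2 (mk [(F.reg j).lab v.1.1 e])))
        (fun v => |mm π ρ S μ ⟨j + 1, v.1⟩ v.2| ≠ 0) v l := by
  obtain ⟨m, hm⟩ := F.sep j
  refine ⟨2 * ρ + m, fun v l hl hlen hW => ?_⟩
  obtain ⟨y, hy⟩ := walk_end π j _ l v hW
  have hstart : |mm π ρ S μ ⟨j + 1, v.1⟩ v.2| ≠ 0 := by
    cases l with
    | nil => exact hW
    | cons e l => exact hW.1
  obtain ⟨z, hz, l1, hl1, -, h1⟩ := exists_of_mm_ne_zero (abs_ne_zero.1 hstart)
  obtain ⟨z', hz', l2, hl2, -, h2⟩ := exists_of_mm_ne_zero (abs_ne_zero.1 hy)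
  dsimp only at h2
  set u : List (α × Bool) := (F.reg j).word v.1.1 l with hu
  have hured : IsReduced u := (F.reg j).word_reduced v.1.1 l hl
  have hulen : u.length = 2 * ρ + m := by rw [hu, Reg.word_length, hlen]
  rw [← h1, act_cls] at h2
  obtain ⟨L, a, hL, hLe⟩ := reads_of_cls_eq h2.symm
  have hmk : mk L = l1 * mk u * l2⁻¹ := by
    rw [hLe]
    group
  have hread : (F.A z.1).Reads z.2.1 (l1 * mk u * l2⁻¹).toWord a := by
    rw [← hmk, toWord_mk]
    exact reads_red (F.A z.1) reduce.red hL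
  have hinf := toWord_infix hured l1 l2⁻¹ ρ hl1 (by rw [norm_inv_eq]; exact hl2)
  obtain ⟨c, d, hcd⟩ := reads_infix (F.A z.1) hinf hread
  have hinf2 : (u.drop ρ).take (u.length - 2 * ρ) <:+: u :=
    (List.take_prefix _ _).isInfix.trans (List.drop_suffix _ _).isInfix
  obtain ⟨c', d', hcd'⟩ := reads_infix (F.A (j + 1)) hinf2 ((F.reg j).reads_word v.1.1 l)
  refine hm z.1 (hS z hz) _ (hured.infix hinf2) ?_ c d c' d' hcd hcd'
  rw [List.length_take, List.length_drop, hulen]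
  omega

end Crest.Agent.FS
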