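import Crest.Agent.FS.CoreVar
import Crest.Agent.FS.Walks
import Crest.Agent.FS.Leaf

/-!
CHUNK CORE (medium: assembly): the main inequality.
-/

set_option autoImplicit false

namespace Crest.Agent.FS

open FreeGroup Finset

variable {α : Type} [Fintype α] [DecidableEq α] {F : Fam α} {G : Type} [Group G]

/-- PROOF: `adm_sign` with the sign of `μ x z` on `S`, and `0` outside `S`. -/
theorem tv_le (π : FreeGroup α →* G) {lam r ρ : ℕ} (hr : 1 ≤ r) (hρ : 1 ≤ ρ)
    {S : Finset (Pt F G)} {μ : Pt F G → Pt F G → ℝ}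
    (H2 : ∀ (x : Pt F G) (c : ℝ) (h : Pt F G → ℝ), 0 ≤ c → Adm F π r ρ c h →
      |∑ z ∈ S, μ x z * h z - h (star F x.2.2)| ≤ lam * r * c) (x : Pt F G) :
    ∑ z ∈ S, |μ x z| ≤ 1 + 2 * lam * r := by
  classical
  set h : Pt F G → ℝ := fun z => SignType.sign (μ x z) with hh
  have h1 : ∀ z, |h z| ≤ 1 := by
    intro z
    rw [hh]
    simp only
    rcases SignType.sign (μ x z) with _ | _ | _ <;> simp
  have h2 := H2 x 2 h (by norm_num) (adm_sign hr hρ h h1)
  have h3 : ∑ z ∈ S, μ x z * h z = ∑ z ∈ S, |μ x z| := by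
    refine Finset.sum_congr rfl fun z _ => ?_
    rw [hh]
    exact self_mul_sign _
  rw [h3] at h2
  have h4 := (abs_le.1 h2).2
  have h5 := (abs_le.1 (h1 (star F x.2.2))).2
  linarith

omit [Fintype α] [DecidableEq α] in
private theorem core_act_act (q : Cl F) (w w' : FreeGroup α) (h : w * w' = 1) :
    act (act q w) w' = q := by
  obtain ⟨i, c⟩ := q
  induction c using Quot.ind with
  | mk a =>
    obtain ⟨a, l⟩ := a
    unfold act
    simp only [Quot.map, mul_assoc, h, mul_one]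
    all_goals rfl

omit [Fintype α] [DecidableEq α] in
private theorem core_mk_inv (s : α × Bool) : mk [s] * mk [invL s] = (1 : FreeGroup α) := by
  have h : (mk [s])⁻¹ = (mk [invL s] : FreeGroup α) := by
    rw [inv_mk]
    rfl
  rw [← h, mul_inv_cancel]

/-- PROOF. `j` = maximum of the `z.1`, `z ∈ S`. `X = (F.A (j+1)).V × G` (finite, `n ≥ 1` elements), `Q = Cl F`, `nbx = nbP π j`,
`nbq x e q = act q (mk [lab x.1 e])`, `f x q = |mm π ρ S μ ⟨j+1, x⟩ q|`, `C` = all `cls z l`, `z ∈ S`, `l.norm ≤ ρ + 1` (if `mm x' (act q (mk [s])) ≠ 0` then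
`act q (mk [s]) = cls z l`, `l.norm ≤ ρ`, and `q = cls z (l * (mk [s])⁻¹)`, as `act (act q w) w⁻¹ = q`). `no_walk` and `iso_sum`:
`4 ∑_x ∑_C f ≤ ∑_x ∑_e ∑_C |f - f'| ≤ ∑_x ∑_e ∑_C |mm x q - mm x' q'|`. By `sum_mm`, `H2` for `adm_tst_one`, `tst_one_star`:
`∑_C f x ≥ ∑_C mm x ≥ 1 - lam r / ρ`. By `var_mm`, `H1` for `adm_tst` (step from `x` to `x'`: `step_lab`) and `tv_le` each `∑_C |mm x q - mm x' q'|` is at most
`lam (2/r) + (1 + 2 lam r)/ρ`. So `4 n (1 - lam r/ρ) ≤ 4 n (2 lam / r + (1 + 2 lam r)/ρ)`; with `r = 8 lam`, `ρ = 2 + 48 lam²`, `lam r = 8 lam²`: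
`1 ≤ 1/4 + (1 + 24 lam²)/(2 + 48 lam²) = 3/4`, contradiction. -/
theorem core (π : FreeGroup α →* G) [Fintype G] (lam r ρ : ℕ) (hlam : 1 ≤ lam)
    (hr : r = 8 * lam) (hρ : ρ = 2 + 48 * lam ^ 2)
    (hπ : ∀ w : FreeGroup α, w ≠ 1 → w.norm ≤ 2 * ρ + 2 → π w ≠ 1) (S : Finset (Pt F G))
    (μ : Pt F G → Pt F G → ℝ)
    (H1 : ∀ (i : ℕ) (a b : (F.A i).V) (g : G) (s : α × Bool), (F.A i).step a s = some b →
      ∀ (c : ℝ) (h : Pt F G → ℝ), 0 ≤ c → Adm F π r ρ c h →
        |∑ z ∈ S, (μ ⟨i, (a, g)⟩ z - μ ⟨i, (b, g * π (mk [s]))⟩ z) * h z| ≤ lam * c)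
    (H2 : ∀ (x : Pt F G) (c : ℝ) (h : Pt F G → ℝ), 0 ≤ c → Adm F π r ρ c h →
      |∑ z ∈ S, μ x z * h z - h (star F x.2.2)| ≤ lam * r * c) : False := by
  classical
  have hr1 : 1 ≤ r := by omega
  have hrρ : r ≤ ρ := by rw [hr, hρ]; nlinarith
  have hρ1 : 1 ≤ ρ := by omega
  have hlamR : (1 : ℝ) ≤ lam := by exact_mod_cast hlam
  have hrR : (r : ℝ) = 8 * lam := by rw [hr]; push_cast; ring
  have hρR : (ρ : ℝ) = 2 + 48 * (lam : ℝ) ^ 2 := by rw [hρ]; push_cast; ring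
  have hρpos : (0 : ℝ) < ρ := by exact_mod_cast hρ1
  have hrpos : (0 : ℝ) < r := by exact_mod_cast hr1
  set j : ℕ := S.sup (fun z => z.1) with hj
  have hS : ∀ z ∈ S, z.1 ≤ j := fun z hz => Finset.le_sup (f := fun z : Pt F G => z.1) hz
  set C : Finset (Cl F) := S.biUnion (fun z => (ball α (ρ + 1)).image (fun l => cls z l)) with hCdef
  have hCmem : ∀ z ∈ S, ∀ l : FreeGroup α, l.norm ≤ ρ + 1 → cls z l ∈ C := by
    intro z hz l hl
    rw [hCdef, Finset.mem_biUnion]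
    exact ⟨z, hz, Finset.mem_image.2 ⟨l, mem_ball.2 hl, rfl⟩⟩
  set mmx : ((F.A (j + 1)).V × G) → Cl F → ℝ := fun x q => mm π ρ S μ ⟨j + 1, x⟩ q with hmmx
  obtain ⟨K, hK⟩ := no_walk π ρ S μ j hS
  have hiso := iso_sum (X := (F.A (j + 1)).V × G) (Q := Cl F) (nbP π j)
    (fun x e q => act q (mk [(F.reg j).lab x.1 e]))
    (by
      intro x e
      unfold nbP
      refine Prod.ext ?_ ?_
      · exact (F.reg j).nb_inv x.1 e
      · simp only
        rw [(F.reg j).lab_inv, mul_assoc, ← π.map_mul, core_mk_inv, π.map_one, mul_one])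
    (by
      intro x e q
      simp only [nbP]
      rw [(F.reg j).lab_inv]
      exact core_act_act q _ _ (core_mk_inv _))
    (fun x q => |mmx x q|)
    (fun x q => abs_nonneg _)
    C
    (by
      intro x q h
      obtain ⟨z, hz, l, hl, -, rfl⟩ := exists_of_mm_ne_zero (abs_ne_zero.1 h)
      exact hCmem z hz l (by omega))
    (by
      intro x e q h
      obtain ⟨z, hz, l, hl, -, hq⟩ := exists_of_mm_ne_zero (abs_ne_zero.1 h)
      have h1 : q = cls z (l * (mk [(F.reg j).lab x.1 e])⁻¹) := by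
        rw [← act_cls, hq]
        exact (core_act_act q _ _ (mul_inv_cancel _)).symm
      rw [h1]
      refine hCmem z hz _ ?_
      refine (FreeGroup.norm_mul_le _ _).trans ?_
      rw [norm_inv_eq]
      have := norm_mk_le (L₁ := [(F.reg j).lab x.1 e])
      simp only [List.length_cons, List.length_nil] at this
      omega)
    K hK
  -- lower bound
  have hlow : ∀ x : (F.A (j + 1)).V × G, 1 - lam * r / ρ ≤ ∑ q ∈ C, |mmx x q| := by
    intro x
    have h1 := H2 ⟨j + 1, x⟩ (1 / ρ) (tst π ρ (fun _ => 1) x.2) (by positivity)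
      (adm_tst_one hr1 hrρ hπ x.2)
    have h2 : tst π ρ (fun _ => 1) x.2 (star F (⟨j + 1, x⟩ : Pt F G).2.2) = 1 :=
      tst_one_star hπ x.2
    rw [h2] at h1
    have h3 := sum_mm (π := π) (ρ := ρ) (S := S) (μ := μ) C
      (fun z hz l hl => hCmem z hz l (by omega)) ⟨j + 1, x⟩
    have h4 : ∑ q ∈ C, mmx x q ≤ ∑ q ∈ C, |mmx x q| :=
      Finset.sum_le_sum fun q _ => le_abs_self _
    have h5 : ∑ q ∈ C, mmx x q = ∑ z ∈ S, μ ⟨j + 1, x⟩ z * tst π ρ (fun _ => 1) x.2 z := h3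
    rw [← h5] at h1
    have h6 := (abs_le.1 h1).1
    have h7 : (lam : ℝ) * r * (1 / ρ) = lam * r / ρ := by ring
    linarith
  -- upper bound
  have hup : ∀ (x : (F.A (j + 1)).V × G) (e : Bool × Bool),
      ∑ q ∈ C, abs (|mmx x q| - abs (mmx (nbP π j x e) (act q (mk [(F.reg j).lab x.1 e])))) ≤
        lam * (2 / r) + (1 + 2 * lam * r) / ρ := by
    intro x e
    obtain ⟨ε, hε, hle⟩ := var_mm (F := F) (G := G) hρ1 hπ S μ C ⟨j + 1, x⟩ ⟨j + 1, nbP π j x e⟩
      ((F.reg j).lab x.1 e) rfl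
    have h1 := H1 (j + 1) x.1 ((F.reg j).nb x.1 e) x.2 ((F.reg j).lab x.1 e)
      ((F.reg j).step_lab x.1 e) (2 / r) (tst π ρ ε x.2) (by positivity)
      (adm_tst hr1 hrρ hπ hε x.2)
    have h2 := tv_le π hr1 hρ1 H2 ⟨j + 1, nbP π j x e⟩
    calc ∑ q ∈ C, abs (|mmx x q| - abs (mmx (nbP π j x e) (act q (mk [(F.reg j).lab x.1 e]))))
        ≤ ∑ q ∈ C, abs (mmx x q - mmx (nbP π j x e) (act q (mk [(F.reg j).lab x.1 e]))) :=
          Finset.sum_le_sum fun q _ => abs_abs_sub_abs_le _ _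
      _ ≤ _ := hle
      _ ≤ lam * (2 / r) + (1 + 2 * lam * r) / ρ := by
          refine add_le_add h1 ?_
          exact div_le_div_of_nonneg_right h2 hρpos.le
  set n : ℝ := (Fintype.card ((F.A (j + 1)).V × G) : ℝ) with hn
  have hnpos : 0 < n := by
    rw [hn]
    have : Nonempty ((F.A (j + 1)).V × G) := by
      have := (F.A (j + 1)).ne
      exact inferInstance
    exact_mod_cast Fintype.card_pos
  have hL : n * (1 - lam * r / ρ) ≤ ∑ x : (F.A (j + 1)).V × G, ∑ q ∈ C, |mmx x q| := by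
    have := Finset.sum_le_sum (s := (Finset.univ : Finset ((F.A (j + 1)).V × G)))
      (fun x _ => hlow x)
    rw [Finset.sum_const, Finset.card_univ, nsmul_eq_mul] at this
    exact this
  have hU : ∑ x : (F.A (j + 1)).V × G, ∑ e : Bool × Bool, ∑ q ∈ C,
      abs (|mmx x q| - abs (mmx (nbP π j x e) (act q (mk [(F.reg j).lab x.1 e])))) ≤
        n * (4 * (lam * (2 / r) + (1 + 2 * lam * r) / ρ)) := by
    have h1 : ∀ x : (F.A (j + 1)).V × G, ∑ e : Bool × Bool, ∑ q ∈ C,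
        abs (|mmx x q| - abs (mmx (nbP π j x e) (act q (mk [(F.reg j).lab x.1 e])))) ≤
        4 * (lam * (2 / r) + (1 + 2 * lam * r) / ρ) := by
      intro x
      have := Finset.sum_le_sum (s := (Finset.univ : Finset (Bool × Bool))) (fun e _ => hup x e)
      rw [Finset.sum_const, Finset.card_univ, nsmul_eq_mul] at this
      refine this.trans (le_of_eq ?_)
      simp
    have := Finset.sum_le_sum (s := (Finset.univ : Finset ((F.A (j + 1)).V × G)))
      (fun x _ => h1 x)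
    rw [Finset.sum_const, Finset.card_univ, nsmul_eq_mul] at this
    exact this
  have hfin : 4 * (n * (1 - lam * r / ρ)) ≤ n * (4 * (lam * (2 / r) + (1 + 2 * lam * r) / ρ)) :=
    (mul_le_mul_of_nonneg_left hL (by norm_num)).trans (hiso.trans hU)
  have hfin2 : (1 : ℝ) - lam * r / ρ ≤ lam * (2 / r) + (1 + 2 * lam * r) / ρ := by
    have h1 : (4 * n) * (1 - lam * r / ρ) ≤ (4 * n) * (lam * (2 / r) + (1 + 2 * lam * r) / ρ) := by
      calc (4 * n) * (1 - lam * r / ρ) = 4 * (n * (1 - lam * r / ρ)) := by ring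
        _ ≤ _ := hfin
        _ = _ := by ring
    exact le_of_mul_le_mul_left h1 (by positivity)
  have e1 : (lam : ℝ) * (2 / r) = 1 / 4 := by
    rw [hrR]
    have : (lam : ℝ) ≠ 0 := by positivity
    field_simp
    norm_num
  have e2 : (lam : ℝ) * r / ρ + (1 + 2 * lam * r) / ρ = 1 / 2 := by
    rw [← add_div, hrR, hρR]
    rw [div_eq_iff (by positivity)]
    ring
  linarith

end Crest.Agent.FS
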