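import Crest.Agent.FS.Test

/-!
CHUNK COREVAR (medium): total mass and variation of the masses `mm`.
-/

set_option autoImplicit false

namespace Crest.Agent.FS

open FreeGroup Finset

variable {α : Type} [Fintype α] [DecidableEq α] {F : Fam α} {G : Type} [Group G]

/-- PROOF: exchange the sums; for given `z, l` with `chi ≠ 0` exactly one `γ ∈ C` is `cls z l`. -/
theorem sum_mm {π : FreeGroup α →* G} {ρ : ℕ} {S : Finset (Pt F G)} {μ : Pt F G → Pt F G → ℝ}
    (C : Finset (Cl F)) (hC : ∀ z ∈ S, ∀ l : FreeGroup α, l.norm ≤ ρ → cls z l ∈ C)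
    (x : Pt F G) :
    ∑ γ ∈ C, mm π ρ S μ x γ = ∑ z ∈ S, μ x z * tst π ρ (fun _ => 1) x.2.2 z := by
  classical
  unfold mm tst
  rw [sum_comm]
  refine sum_congr rfl fun z hz => ?_
  rw [sum_comm, mul_sum]
  refine sum_congr rfl fun l hl => ?_
  have hCl := hC z hz l (mem_ball.1 hl)
  by_cases hA : z.2.2 * π l = x.2.2
  · rw [if_pos hA, one_mul]
    rw [sum_eq_single (cls z l)]
    · rw [if_pos ⟨hA, rfl⟩]
    · intro γ _ hne
      rw [if_neg (fun h => hne h.2.symm)]
    · intro h; exact absurd hCl h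
  · rw [if_neg hA, mul_zero]
    exact sum_eq_zero fun γ _ => if_neg (fun h => hA h.1)

omit [Fintype α] [DecidableEq α] in
private theorem cv_act_inj {γ γ' : Cl F} {w : FreeGroup α} (h : act γ w = act γ' w) : γ = γ' := by
  have key : ∀ γ : Cl F, act (act γ w) w⁻¹ = γ := by
    rintro ⟨i, q⟩
    induction q using Quot.ind with
    | mk a =>
      change (⟨i, Quot.mk _ (a.1, a.2 * w * w⁻¹)⟩ : Cl F) = ⟨i, Quot.mk _ a⟩
      rw [mul_inv_cancel_right]
  rw [← key γ, h, key]

omit [Fintype α] in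
private theorem cv_norm1 (s : α × Bool) : (mk [s] : FreeGroup α).norm ≤ 1 := by
  have := FreeGroup.norm_mk_le (L₁ := [s])
  simpa using this

open Classical in
private theorem cv_mm_x {π : FreeGroup α →* G} {ρ : ℕ} (hρ : 1 ≤ ρ) (S : Finset (Pt F G))
    (μ : Pt F G → Pt F G → ℝ) (x : Pt F G) (γ : Cl F) :
    mm π ρ S μ x γ = ∑ z ∈ S, ∑ l ∈ ball α (ρ + 1),
      if z.2.2 * π l = x.2.2 ∧ cls z l = γ then μ x z * chi ρ l.norm else 0 := by
  unfold mm
  refine sum_congr rfl fun z _ => ?_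
  refine sum_subset_zero_on_sdiff ?_ ?_ ?_
  · intro l hl
    rw [mem_ball] at hl ⊢
    omega
  · intro l hl
    rw [mem_sdiff, mem_ball, mem_ball] at hl
    rw [chi_eq_zero hρ (by omega), mul_zero, ite_self]
  · intro l _
    split_ifs <;> rfl

open Classical in
private theorem cv_mm_x' {π : FreeGroup α →* G} {ρ : ℕ} (hρ : 1 ≤ ρ) (S : Finset (Pt F G))
    (μ : Pt F G → Pt F G → ℝ) (x x' : Pt F G) (t : FreeGroup α) (ht : t.norm ≤ 1)
    (hg : x'.2.2 = x.2.2 * π t) (γ : Cl F) :
    mm π ρ S μ x' (act γ t) = ∑ z ∈ S, ∑ l ∈ ball α (ρ + 1),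
      if z.2.2 * π l = x.2.2 ∧ cls z l = γ then μ x' z * chi ρ (l * t).norm else 0 := by
  unfold mm
  refine sum_congr rfl fun z _ => ?_
  have h1 : ∀ f : FreeGroup α → ℝ, ∑ l ∈ ball α ρ, f l =
      ∑ l ∈ (ball α ρ).map (Equiv.mulRight t).symm.toEmbedding, f (l * t) := by
    intro f
    rw [sum_map]
    refine sum_congr rfl fun l _ => ?_
    simp
  rw [h1]
  refine sum_subset_zero_on_sdiff ?_ ?_ ?_
  · intro l hl
    rw [mem_map] at hl
    obtain ⟨l', hl', rfl⟩ := hl
    rw [mem_ball] at hl' ⊢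
    have h2 : ((Equiv.mulRight t).symm.toEmbedding l') = l' * t⁻¹ := rfl
    rw [h2]
    have h3 := FreeGroup.norm_mul_le l' t⁻¹
    have h4 : t⁻¹.norm = t.norm := FreeGroup.norm_inv_eq
    omega
  · intro l hl
    rw [mem_sdiff, mem_map] at hl
    have h2 : ¬ (l * t).norm ≤ ρ := by
      intro h
      refine hl.2 ⟨l * t, mem_ball.2 h, ?_⟩
      simp
    rw [chi_eq_zero hρ (by omega), mul_zero, ite_self]
  · intro l _
    have h2 : (z.2.2 * π (l * t) = x'.2.2 ∧ cls z (l * t) = act γ t) ↔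
        (z.2.2 * π l = x.2.2 ∧ cls z l = γ) := by
      rw [hg, MonoidHom.map_mul, ← mul_assoc, mul_left_inj, ← act_cls]
      refine and_congr Iff.rfl ⟨fun h => cv_act_inj h, fun h => by rw [h]⟩
    by_cases h3 : z.2.2 * π l = x.2.2 ∧ cls z l = γ
    · rw [if_pos h3, if_pos (h2.2 h3)]
    · rw [if_neg h3, if_neg (fun h => h3 (h2.1 h))]

/-- PROOF. `x' = x s`. Reindexing `l ↦ l * mk [s]`: `mm x' (act γ (mk [s])) = ∑_z ∑_l [g_z π l = g, cls z l = γ] μ x' z chi |l * mk [s]|`, where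
(as `chi` vanishes from `ρ` on) both this sum and that of `mm x γ` may be taken over the words `l` of norm `≤ ρ + 1`. So the
difference is `∑_{z,l} [..] ((μ x z - μ x' z) chi |l| + μ x' z (chi |l| - chi |l * mk [s]|))`. Sum the absolute values over `γ ∈ C`:
the second part is at most `∑_z |μ x' z| / ρ` as for given `z` there is at most one `l` (`rel_unique`, `chi_lip`). For the first
let `ε γ = ±1` be the sign of `∑_{z,l} [cls z l = γ] (μ x z - μ x' z) chi |l|` for `γ ∈ C`, `ε γ = 0` for `γ ∉ C`: the sum of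
the absolute values is `∑_z (μ x z - μ x' z) tst ε z`. -/
theorem var_mm {π : FreeGroup α →* G} {ρ : ℕ} (hρ : 1 ≤ ρ)
    (hπ : ∀ w : FreeGroup α, w ≠ 1 → w.norm ≤ 2 * ρ + 2 → π w ≠ 1) (S : Finset (Pt F G))
    (μ : Pt F G → Pt F G → ℝ) (C : Finset (Cl F)) (x x' : Pt F G) (s : α × Bool)
    (hg : x'.2.2 = x.2.2 * π (mk [s])) :
    ∃ ε : Cl F → ℝ, (∀ γ, |ε γ| ≤ 1) ∧
      ∑ γ ∈ C, |mm π ρ S μ x γ - mm π ρ S μ x' (act γ (mk [s]))| ≤
        |∑ z ∈ S, (μ x z - μ x' z) * tst π ρ ε x.2.2 z| + (∑ z ∈ S, |μ x' z|) / ρ := by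
  classical
  obtain ⟨D1, hD1⟩ : ∃ D1 : Cl F → ℝ, D1 = fun γ => ∑ z ∈ S, ∑ l ∈ ball α ρ,
    if z.2.2 * π l = x.2.2 ∧ cls z l = γ then (μ x z - μ x' z) * chi ρ l.norm else 0 := ⟨_, rfl⟩
  obtain ⟨D2, hD2⟩ : ∃ D2 : Cl F → ℝ, D2 = fun γ => ∑ z ∈ S, ∑ l ∈ ball α (ρ + 1),
    if z.2.2 * π l = x.2.2 ∧ cls z l = γ then μ x' z * (chi ρ l.norm - chi ρ (l * mk [s]).norm)
      else 0 := ⟨_, rfl⟩
  have hD1' : ∀ γ, D1 γ = ∑ z ∈ S, ∑ l ∈ ball α (ρ + 1),
      if z.2.2 * π l = x.2.2 ∧ cls z l = γ then (μ x z - μ x' z) * chi ρ l.norm else 0 := by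
    intro γ
    rw [hD1]
    refine sum_congr rfl fun z _ => ?_
    refine sum_subset_zero_on_sdiff ?_ ?_ ?_
    · intro l hl
      rw [mem_ball] at hl ⊢
      omega
    · intro l hl
      rw [mem_sdiff, mem_ball, mem_ball] at hl
      rw [chi_eq_zero hρ (by omega), mul_zero, ite_self]
    · intro l _
      rfl
  have hdiff : ∀ γ, mm π ρ S μ x γ - mm π ρ S μ x' (act γ (mk [s])) = D1 γ + D2 γ := by
    intro γ
    rw [cv_mm_x hρ, cv_mm_x' hρ S μ x x' (mk [s]) (cv_norm1 s) hg, hD1', hD2, ← sum_sub_distrib, ← sum_add_distrib]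
    refine sum_congr rfl fun z _ => ?_
    rw [← sum_sub_distrib, ← sum_add_distrib]
    refine sum_congr rfl fun l _ => ?_
    split_ifs <;> ring
  refine ⟨fun γ => if γ ∈ C then (SignType.sign (D1 γ) : ℝ) else 0, ?_, ?_⟩
  · intro γ
    dsimp only
    split_ifs
    · rcases lt_trichotomy (D1 γ) 0 with h | h | h
      · simp [sign_neg h]
      · simp [h]
      · simp [sign_pos h]
    · simp
  · have h1 : ∑ γ ∈ C, |D1 γ| = ∑ z ∈ S, (μ x z - μ x' z) *
        tst π ρ (fun γ => if γ ∈ C then (SignType.sign (D1 γ) : ℝ) else 0) x.2.2 z := by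
      have h2 : ∀ γ ∈ C, |D1 γ| = ∑ z ∈ S, ∑ l ∈ ball α ρ,
          if z.2.2 * π l = x.2.2 ∧ cls z l = γ then
            (SignType.sign (D1 γ) : ℝ) * ((μ x z - μ x' z) * chi ρ l.norm) else 0 := by
        intro γ _
        rw [← sign_mul_self, hD1]
        dsimp only
        rw [mul_sum]
        refine sum_congr rfl fun z _ => ?_
        rw [mul_sum]
        refine sum_congr rfl fun l _ => ?_
        rw [mul_ite, mul_zero]
      rw [sum_congr rfl h2, sum_comm]
      refine sum_congr rfl fun z _ => ?_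
      unfold tst
      rw [sum_comm, mul_sum]
      refine sum_congr rfl fun l _ => ?_
      by_cases hA : z.2.2 * π l = x.2.2
      · rw [if_pos hA]
        by_cases hCl : cls z l ∈ C
        · rw [sum_eq_single (cls z l)]
          · rw [if_pos ⟨hA, rfl⟩]
            dsimp only
            rw [if_pos hCl]; ring
          · intro γ _ hne
            rw [if_neg (fun h => hne h.2.symm)]
          · intro h; exact absurd hCl h
        · dsimp only
          rw [if_neg hCl, zero_mul, mul_zero]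
          refine sum_eq_zero fun γ hγ => if_neg ?_
          rintro ⟨_, rfl⟩
          exact hCl hγ
      · rw [if_neg hA, mul_zero]
        exact sum_eq_zero fun γ _ => if_neg (fun h => hA h.1)
    have h3 : ∑ γ ∈ C, |D2 γ| ≤ (∑ z ∈ S, |μ x' z|) / ρ := by
      have h4 : ∀ γ ∈ C, |D2 γ| ≤ ∑ z ∈ S, ∑ l ∈ ball α (ρ + 1),
          if z.2.2 * π l = x.2.2 ∧ cls z l = γ then |μ x' z| / ρ else 0 := by
        intro γ _
        rw [hD2]
        refine (abs_sum_le_sum_abs _ _).trans (sum_le_sum fun z _ => ?_)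
        refine (abs_sum_le_sum_abs _ _).trans (sum_le_sum fun l _ => ?_)
        split_ifs
        · rw [abs_mul, div_eq_mul_one_div]
          refine mul_le_mul_of_nonneg_left (chi_lip ?_ ?_) (abs_nonneg _)
          · have h5 := FreeGroup.norm_mul_le (l * mk [s]) (mk [s])⁻¹
            rw [mul_inv_cancel_right, FreeGroup.norm_inv_eq] at h5
            have h6 := cv_norm1 s
            omega
          · have h5 := FreeGroup.norm_mul_le l (mk [s])
            have h6 := cv_norm1 s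
            omega
        · simp
      refine (sum_le_sum h4).trans ?_
      rw [sum_comm, sum_div]
      refine sum_le_sum fun z _ => ?_
      rw [sum_comm]
      have h7 : ∀ l ∈ ball α (ρ + 1), (∑ γ ∈ C, if z.2.2 * π l = x.2.2 ∧ cls z l = γ then
          |μ x' z| / (ρ : ℝ) else 0) ≤ if z.2.2 * π l = x.2.2 then |μ x' z| / (ρ : ℝ) else 0 := by
        intro l _
        by_cases hA : z.2.2 * π l = x.2.2
        · rw [if_pos hA]
          simp only [hA, true_and]
          rw [sum_ite_eq]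
          split_ifs
          · exact le_rfl
          · positivity
        · rw [if_neg hA]
          exact (sum_eq_zero fun γ _ => if_neg (fun h => hA h.1)).le
      refine (sum_le_sum h7).trans ?_
      by_cases hex : ∃ l ∈ ball α (ρ + 1), z.2.2 * π l = x.2.2
      · obtain ⟨l0, hl0, hA0⟩ := hex
        rw [sum_eq_single l0]
        · rw [if_pos hA0]
        · intro l hl hne
          refine if_neg (fun hA => hne ?_)
          exact rel_unique hπ (mem_ball.1 hl) (mem_ball.1 hl0) hA hA0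
        · intro h; exact absurd hl0 h
      · push Not at hex
        rw [sum_eq_zero fun l hl => if_neg (hex l hl)]
        positivity
    calc ∑ γ ∈ C, |mm π ρ S μ x γ - mm π ρ S μ x' (act γ (mk [s]))|
        ≤ ∑ γ ∈ C, (|D1 γ| + |D2 γ|) := by
          refine sum_le_sum fun γ _ => ?_
          rw [hdiff]
          exact abs_add_le _ _
      _ = ∑ γ ∈ C, |D1 γ| + ∑ γ ∈ C, |D2 γ| := sum_add_distrib
      _ ≤ _ := by
          refine add_le_add ?_ h3
          rw [h1]
          exact le_abs_self _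

end Crest.Agent.FS
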