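import Crest.Agent.FS.Edge

/-!
CHUNK COUNT (medium): the union bound over labellings.
-/

set_option autoImplicit false

namespace Crest.Agent.FS

open FreeGroup Finset

/-- PROOF: the map `σ ↦ σ` restricted to `{x // x ∉ L}` is injective on the set on the left; its target
has `K ^ (card E - L.length)` elements. -/
theorem card_labels {E : Type} [Fintype E] [DecidableEq E] {K : ℕ} (L : List E) (hL : L.Nodup)
    (v : List (Fin K)) :
    ((univ : Finset (E → Fin K)).filter (fun σ => L.map σ = v)).card ≤
      K ^ (Fintype.card E - L.length) := by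
  let f : (E → Fin K) → ({x // x ∉ L} → Fin K) := fun σ x => σ x
  have hinj : Set.InjOn f ((univ : Finset (E → Fin K)).filter (fun σ => L.map σ = v)) := by
    intro σ hσ τ hτ hf
    rw [Finset.mem_coe, Finset.mem_filter] at hσ hτ
    have h1 : L.map σ = L.map τ := hσ.2.trans hτ.2.symm
    rw [List.map_inj_left] at h1
    funext x
    by_cases hx : x ∈ L
    · exact h1 x hx
    · exact congrFun hf ⟨x, hx⟩
  have hcard : Fintype.card {x // x ∉ L} = Fintype.card E - L.length := by
    have h1 : Fintype.card {x // x ∉ L} = Fintype.card {x // ¬ x ∈ L.toFinset} :=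
      Fintype.card_congr (Equiv.subtypeEquivRight fun x => by rw [List.mem_toFinset])
    rw [h1, Fintype.card_subtype_compl, Fintype.card_coe, List.toFinset_card_of_nodup hL]
  calc ((univ : Finset (E → Fin K)).filter (fun σ => L.map σ = v)).card
      ≤ (univ : Finset ({x // x ∉ L} → Fin K)).card :=
        Finset.card_le_card_of_injOn f (fun _ _ => Finset.mem_coe.2 (Finset.mem_univ _)) hinj
    _ = K ^ (Fintype.card E - L.length) := by
        rw [Finset.card_univ, Fintype.card_fun, Fintype.card_fin, hcard]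

/-- PROOF. If not, every `σ` reads some `w ∈ R` from some `p`; then (`reads_gPA`) `edgesOf θ p (..)` is mapped by `σ` to the
second components of `w`, and its list of directions is reduced, so (`edgesOf_nodup`, `edgesOf_length`, `card_labels`) at
most `K ^ (2 |P| - m)` labellings do so for given `p, w`, in total at most `|P| |R| K ^ (2|P| - m) < K ^ (2|P|)` of them. (`m ≤ 2|P|`
because the edges are distinct.) -/
theorem exists_labels {P : Type} [Group P] [Fintype P] [DecidableEq P] (θ : FreeGroup Bool →* P)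
    (K m : ℕ) (hK : 0 < K) (hθ : ∀ w : FreeGroup Bool, w ≠ 1 → w.norm ≤ m → θ w ≠ 1)
    (R : Finset (List ((Bool × Fin K) × Bool))) (hR : ∀ w ∈ R, w.length = m ∧ IsReduced w)
    (hcard : Fintype.card P * R.card < K ^ m) :
    ∃ σ : Bool × P → Fin K, ∀ w ∈ R, ∀ p q : P, ¬ (gPA θ σ).Reads p w q := by
  classical
  by_contra hcon
  push Not at hcon
  haveI : Nonempty (Fin K) := ⟨⟨0, hK⟩⟩
  -- properties of one reading
  have key : ∀ (σ : Bool × P → Fin K) (w : List ((Bool × Fin K) × Bool)), w ∈ R → ∀ p q : P,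
      (gPA θ σ).Reads p w q →
      (edgesOf θ p (w.map fun s => (s.1.1, s.2))).Nodup ∧
      (edgesOf θ p (w.map fun s => (s.1.1, s.2))).length = m ∧
      (edgesOf θ p (w.map fun s => (s.1.1, s.2))).map σ = w.map (fun s => s.1.2) := by
    intro σ w hw p q h
    obtain ⟨h1, h2⟩ := reads_gPA θ σ h
    obtain ⟨h3, h4⟩ := hR w hw
    have hlen : (w.map fun s => ((s.1.1, s.2) : Bool × Bool)).length = m := by
      rw [List.length_map, h3]
    exact ⟨edgesOf_nodup θ m hθ p _ (h2 h4) hlen.le, (edgesOf_length θ p _).trans hlen, h1⟩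
  -- `m ≤ 2 |P|`
  have hm : m ≤ Fintype.card (Bool × P) := by
    obtain ⟨w, hw, p, q, h⟩ := hcon (fun _ => Classical.choice inferInstance)
    obtain ⟨h1, h2, _⟩ := key _ w hw p q h
    rw [← h2]
    exact h1.length_le_card
  have hbound : ∀ (x : P × List ((Bool × Fin K) × Bool)), x ∈ (univ : Finset P) ×ˢ R →
      ((univ : Finset (Bool × P → Fin K)).filter
        (fun σ => ∃ q : P, (gPA θ σ).Reads x.1 x.2 q)).card ≤ K ^ (Fintype.card (Bool × P) - m) := by
    rintro ⟨p, w⟩ hx
    have hw : w ∈ R := (Finset.mem_product.1 hx).2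
    rcases Finset.eq_empty_or_nonempty ((univ : Finset (Bool × P → Fin K)).filter
        (fun σ => ∃ q : P, (gPA θ σ).Reads p w q)) with he | ⟨σ₀, hσ₀⟩
    · show ((univ : Finset (Bool × P → Fin K)).filter
        (fun σ => ∃ q : P, (gPA θ σ).Reads p w q)).card ≤ _
      rw [he, Finset.card_empty]
      exact Nat.zero_le _
    · obtain ⟨q₀, hq₀⟩ := (Finset.mem_filter.1 hσ₀).2
      obtain ⟨h1, h2, _⟩ := key σ₀ w hw p q₀ hq₀
      have h3 := card_labels (K := K) _ h1 (w.map (fun s => s.1.2))
      rw [h2] at h3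
      refine le_trans (Finset.card_le_card ?_) h3
      intro σ hσ
      obtain ⟨q, hq⟩ := (Finset.mem_filter.1 hσ).2
      exact Finset.mem_filter.2 ⟨Finset.mem_univ _, (key σ w hw p q hq).2.2⟩
  have htot : (univ : Finset (Bool × P → Fin K)) ⊆ ((univ : Finset P) ×ˢ R).biUnion
      (fun x => (univ : Finset (Bool × P → Fin K)).filter
        (fun σ => ∃ q : P, (gPA θ σ).Reads x.1 x.2 q)) := by
    intro σ _
    obtain ⟨w, hw, p, q, h⟩ := hcon σ
    exact Finset.mem_biUnion.2 ⟨(p, w), Finset.mem_product.2 ⟨Finset.mem_univ _, hw⟩,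
      Finset.mem_filter.2 ⟨Finset.mem_univ _, q, h⟩⟩
  have h1 := (Finset.card_le_card htot).trans
    (Finset.card_biUnion_le_card_mul _ _ _ hbound)
  rw [Finset.card_univ, Fintype.card_fun, Fintype.card_fin, Finset.card_product,
    Finset.card_univ] at h1
  have h2 : K ^ Fintype.card (Bool × P) =
      K ^ m * K ^ (Fintype.card (Bool × P) - m) := by
    rw [← pow_add]
    congr 1
    omega
  rw [h2] at h1
  have h3 : 0 < K ^ (Fintype.card (Bool × P) - m) := pow_pos hK _
  have h4 := Nat.mul_lt_mul_of_pos_right hcard h3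
  omega

end Crest.Agent.FS
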