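import Mathlib

/-!
CHUNK CON (easy/medium): the largest metric satisfying given constraints.
-/

set_option autoImplicit false

namespace Crest.Agent.FS

/-- functions compatible with the constraints `E` -/
def Comp {X : Type} (E : X → X → ℝ → Prop) (h : X → ℝ) : Prop :=
  ∀ x y c, E x y c → |h x - h y| ≤ c

/-- constraints: `E x y c` says that the distance of `x` and `y` is at most `c` -/
structure Con (X : Type) where
  E : X → X → ℝ → Prop
  one_le : ∀ x y c, E x y c → 1 ≤ c
  bdd : ∀ x y, ∃ C : ℝ, ∀ h : X → ℝ, Comp E h → |h x - h y| ≤ C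

variable {X : Type}

/-- the metric -/
noncomputable def Con.d (c : Con X) (x y : X) : ℝ :=
  ⨆ h : {h : X → ℝ // Comp c.E h}, |h.1 x - h.1 y|

private theorem Con.bddAbove_aux (c : Con X) (x y : X) :
    BddAbove (Set.range fun h : {h : X → ℝ // Comp c.E h} => |h.1 x - h.1 y|) := by
  obtain ⟨C, hC⟩ := c.bdd x y
  refine ⟨C, ?_⟩
  rintro _ ⟨h, rfl⟩
  exact hC h.1 h.2

private theorem Con.comp_const (c : Con X) (a : ℝ) : Comp c.E (fun _ => a) := by
  intro x y C h
  have := c.one_le x y C h
  rw [sub_self, abs_zero]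
  linarith

theorem Con.abs_le_d (c : Con X) {h : X → ℝ} (hh : Comp c.E h) (x y : X) :
    |h x - h y| ≤ c.d x y :=
  le_ciSup (c.bddAbove_aux x y) (⟨h, hh⟩ : {h : X → ℝ // Comp c.E h})

theorem Con.d_le (c : Con X) {x y : X} {C : ℝ}
    (h : ∀ h : X → ℝ, Comp c.E h → |h x - h y| ≤ C) : c.d x y ≤ C := by
  have : Nonempty {h : X → ℝ // Comp c.E h} := ⟨⟨fun _ => 0, c.comp_const 0⟩⟩
  exact ciSup_le fun g => h g.1 g.2

theorem Con.d_self (c : Con X) (x : X) : c.d x x = 0 := by
  apply le_antisymm
  · apply c.d_le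
    intro h _
    rw [sub_self, abs_zero]
  · have := c.abs_le_d (c.comp_const 0) x x
    simpa using this

theorem Con.d_comm (c : Con X) (x y : X) : c.d x y = c.d y x := by
  unfold Con.d
  congr 1
  funext h
  exact abs_sub_comm _ _

theorem Con.d_triangle (c : Con X) (x y z : X) : c.d x z ≤ c.d x y + c.d y z := by
  apply c.d_le
  intro h hh
  calc |h x - h z| ≤ |h x - h y| + |h y - h z| := abs_sub_le _ _ _
    _ ≤ c.d x y + c.d y z := add_le_add (c.abs_le_d hh x y) (c.abs_le_d hh y z)

/-- PROOF: the indicator function of `{x}` is compatible (all constants are `≥ 1`). -/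
theorem Con.one_le_d (c : Con X) {x y : X} (h : x ≠ y) : 1 ≤ c.d x y := by
  classical
  have hc : Comp c.E (fun z => if z = x then (1 : ℝ) else 0) := by
    intro u v C hE
    have h1 := c.one_le u v C hE
    refine le_trans ?_ h1
    by_cases hu : u = x <;> by_cases hv : v = x <;> simp [hu, hv]
  have := c.abs_le_d hc x y
  simpa [h.symm] using this

/-- the metric space -/
noncomputable def Con.metric (c : Con X) : MetricSpace X where
  dist := c.d
  dist_self := c.d_self
  dist_comm := c.d_comm
  dist_triangle := c.d_triangle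
  eq_of_dist_eq_zero := by
    intro x y h
    by_contra hne
    have := c.one_le_d hne
    have h' : c.d x y = 0 := h
    linarith

theorem Con.d_le_of_E (c : Con X) {x y : X} {C : ℝ} (h : c.E x y C) : c.d x y ≤ C :=
  c.d_le fun _ hh => hh x y C h

/-- `K`-Lipschitz functions. PROOF: for `K > 0` apply `abs_le_d` to `f / K`; for `K = 0` the function is constant along `E`, so
all multiples of `f` are compatible, and `bdd` gives `f x = f y`. -/
theorem Con.lip_of (c : Con X) {f : X → ℝ} {K : ℝ} (hK : 0 ≤ K)
    (h : ∀ x y C, c.E x y C → |f x - f y| ≤ K * C) (x y : X) : |f x - f y| ≤ K * c.d x y := by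
  rcases hK.lt_or_eq with hK | hK
  · have hc : Comp c.E (fun z => f z / K) := by
      intro u v C hE
      have h1 := h u v C hE
      rw [← sub_div, abs_div, abs_of_pos hK, div_le_iff₀ hK]
      linarith
    have h2 := c.abs_le_d hc x y
    rw [← sub_div, abs_div, abs_of_pos hK, div_le_iff₀ hK] at h2
    linarith
  · subst hK
    rw [zero_mul]
    have hmul : ∀ a : ℝ, Comp c.E (fun z => a * f z) := by
      intro a u v C hE
      have h1 := h u v C hE
      rw [zero_mul] at h1
      have h2 : f u - f v = 0 := abs_eq_zero.1 (le_antisymm h1 (abs_nonneg _))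
      have h3 := c.one_le u v C hE
      rw [← mul_sub, h2, mul_zero, abs_zero]
      linarith
    obtain ⟨C, hC⟩ := c.bdd x y
    by_contra hne
    push Not at hne
    have h4 := hC _ (hmul ((|C| + 1) / |f x - f y|))
    rw [← mul_sub, abs_mul, abs_div, abs_abs, div_mul_cancel₀ _ hne.ne'] at h4
    have h5 : |C| + 1 ≤ |(|C| + 1)| := le_abs_self _
    have h6 := le_abs_self C
    linarith

end Crest.Agent.FS
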