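import Crest.Agent.FS.Defs

/-!
CHUNK READ (easy): reading words in a partial action.
-/

set_option autoImplicit false

namespace Crest.Agent.FS

open FreeGroup

variable {α : Type} (A : PA α)

theorem reads_append {a b : A.V} {l l' : List (α × Bool)} :
    A.Reads a (l ++ l') b ↔ ∃ c, A.Reads a l c ∧ A.Reads c l' b := by
  induction l generalizing a with
  | nil =>
    constructor
    · intro h
      exact ⟨a, rfl, h⟩
    · rintro ⟨c, h, h'⟩
      have h1 : a = c := h
      rw [h1]
      exact h'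
  | cons s l ih =>
    constructor
    · rintro ⟨c, h1, h2⟩
      obtain ⟨d, h3, h4⟩ := ih.1 h2
      exact ⟨d, ⟨c, h1, h3⟩, h4⟩
    · rintro ⟨d, ⟨c, h1, h3⟩, h4⟩
      exact ⟨c, h1, ih.2 ⟨d, h3, h4⟩⟩

theorem reads_single {a b : A.V} {s : α × Bool} : A.Reads a [s] b ↔ A.step a s = some b := by
  constructor
  · rintro ⟨c, h1, h2⟩
    have h3 : c = b := h2
    rw [← h3]
    exact h1
  · intro h
    exact ⟨b, h, rfl⟩

/-- PROOF: induction, `step_inv`, `invRev (s :: l) = invRev l ++ [invL s]`. -/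
theorem reads_inv {a b : A.V} {l : List (α × Bool)} (h : A.Reads a l b) :
    A.Reads b (invRev l) a := by
  induction l generalizing a with
  | nil => exact (show a = b from h).symm
  | cons s l ih =>
    obtain ⟨c, h1, h2⟩ := h
    rw [invRev_cons, reads_append]
    refine ⟨c, ih h2, ?_⟩
    have h3 : invRev [s] = [invL s] := rfl
    rw [h3, reads_single]
    exact A.step_inv _ _ _ h1

theorem reads_unique {a b c : A.V} {l : List (α × Bool)} (h : A.Reads a l b)
    (h' : A.Reads a l c) : b = c := by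
  induction l generalizing a with
  | nil => exact (show a = b from h).symm.trans h'
  | cons s l ih =>
    obtain ⟨d, h1, h2⟩ := h
    obtain ⟨d', h1', h2'⟩ := h'
    have h3 : d = d' := Option.some.inj (h1.symm.trans h1')
    subst h3
    exact ih h2 h2'

private theorem reads_step {a b : A.V} {l l' : List (α × Bool)} (h : Red.Step l l')
    (hr : A.Reads a l b) : A.Reads a l' b := by
  cases h with
  | @not L₁ L₂ x c =>
    rw [reads_append] at hr ⊢
    obtain ⟨d, h1, e, h2, e', h3, h4⟩ := hr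
    refine ⟨d, h1, ?_⟩
    have h5 := A.step_inv _ _ _ h2
    have h6 : d = e' := Option.some.inj (h5.symm.trans h3)
    rw [h6]
    exact h4

/-- PROOF: induction on `Red` (`Relation.ReflTransGen` of `Red.Step`); for a step `L₁ ++ (x,b) :: (x,!b) :: L₂ → L₁ ++ L₂`:
after reading `(x,b)` from `c` to `d`, `step_inv` gives `step d (x,!b) = some c`. -/
theorem reads_red {a b : A.V} {l l' : List (α × Bool)} (h : Red l l') (hr : A.Reads a l b) :
    A.Reads a l' b := by
  induction h with
  | refl => exact hr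
  | tail _ hs ih => exact reads_step A hs ih

theorem reads_infix {a b : A.V} {l l' : List (α × Bool)} (h : l <:+: l') (hr : A.Reads a l' b) :
    ∃ c d, A.Reads c l d := by
  obtain ⟨s, t, rfl⟩ := h
  rw [reads_append] at hr
  obtain ⟨d, h1, -⟩ := hr
  rw [reads_append] at h1
  obtain ⟨c, -, h2⟩ := h1
  exact ⟨c, d, h2⟩

theorem clsRel_equiv : Equivalence (clsRel A) where
  refl x := ⟨[], rfl, by rw [← FreeGroup.one_eq_mk, one_mul]⟩
  symm := by
    rintro x y ⟨L, h1, h2⟩
    refine ⟨invRev L, reads_inv A h1, ?_⟩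
    rw [h2, ← inv_mk, inv_mul_cancel_left]
  trans := by
    rintro x y z ⟨L, h1, h2⟩ ⟨L', h1', h2'⟩
    refine ⟨L ++ L', (reads_append A).2 ⟨_, h1, h1'⟩, ?_⟩
    rw [h2, h2', ← mul_mk, mul_assoc]

/-- PROOF: `cls z l = cls z' l'` gives `z.1 = z'.1`; case on it, then `Quot.eq`/`Quot.eqvGen_exact` and
`clsRel_equiv`. -/
theorem reads_of_cls_eq {F : Fam α} {G : Type} {z z' : Pt F G} {l l' : FreeGroup α}
    (h : cls z l = cls z' l') :
    ∃ (L : List (α × Bool)) (a : (F.A z.1).V), (F.A z.1).Reads z.2.1 L a ∧ l = mk L * l' := by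
  rcases z with ⟨i, a, g⟩
  rcases z' with ⟨i', a', g'⟩
  unfold cls at h
  have h1 : i = i' := congrArg Sigma.fst h
  subst h1
  have h2 : Quot.mk (clsRel (F.A i)) (a, l) = Quot.mk (clsRel (F.A i)) (a', l') :=
    eq_of_heq (Sigma.mk.inj h).2
  have h3 := (clsRel_equiv (F.A i)).eqvGen_iff.1 (Quot.eqvGen_exact h2)
  obtain ⟨L, h4, h5⟩ := h3
  exact ⟨L, a', h4, h5⟩

/-- moving `z` along a letter -/
theorem cls_step {F : Fam α} {G : Type} {i : ℕ} {a b : (F.A i).V} {s : α × Bool} (g g' : G)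
    (h : (F.A i).step a s = some b) (l : FreeGroup α) :
    cls (F := F) (⟨i, (a, g)⟩ : Pt F G) (mk [s] * l) = cls (⟨i, (b, g')⟩ : Pt F G) l := by
  unfold cls
  have : Quot.mk (clsRel (F.A i)) (a, mk [s] * l) = Quot.mk (clsRel (F.A i)) (b, l) :=
    Quot.sound ⟨[s], (reads_single (F.A i)).2 h, rfl⟩
  exact congrArg (fun q => (⟨i, q⟩ : Cl F)) this

end Crest.Agent.FS
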