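import Crest.Agent.FS.Lab
import Crest.Agent.FS.Read

/-!
CHUNK EDGE (medium): short reduced walks use distinct edges.
-/

set_option autoImplicit false

namespace Crest.Agent.FS

open FreeGroup

section
variable {P : Type} [Group P] (θ : FreeGroup Bool →* P) {K : ℕ} (σ : Bool × P → Fin K)

private theorem theta_ne_one (m : ℕ) (hθ : ∀ w : FreeGroup Bool, w ≠ 1 → w.norm ≤ m → θ w ≠ 1)
    (l : List (Bool × Bool)) (hl : IsReduced l) (hm : l.length ≤ m) (h0 : l ≠ []) :
    θ (mk l) ≠ 1 := by
  have h1 : (mk l : FreeGroup Bool).toWord = l := by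
    rw [toWord_mk, hl.reduce_eq]
  refine hθ _ ?_ ?_
  · intro h
    apply h0
    rw [← h1, h, toWord_one]
  · rw [FreeGroup.norm, h1]
    exact hm

private theorem mem_edgesOf {x : Bool × P} {q : P} {l : List (Bool × Bool)}
    (h : x ∈ edgesOf θ q l) :
    ∃ l₁ f l₂, l = l₁ ++ f :: l₂ ∧ x = edge θ (q * θ (mk l₁)) f := by
  induction l generalizing q with
  | nil => simp [edgesOf] at h
  | cons e l ih =>
    rw [edgesOf, List.mem_cons] at h
    rcases h with h | h
    · refine ⟨[], e, l, rfl, ?_⟩
      rw [← one_eq_mk, MonoidHom.map_one, mul_one]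
      exact h
    · obtain ⟨l₁, f, l₂, h1, h2⟩ := ih h
      refine ⟨e :: l₁, f, l₂, by rw [h1]; rfl, ?_⟩
      rw [h2]
      congr 1
      unfold gnb
      rw [mul_assoc, ← MonoidHom.map_mul, mul_mk]
      rfl

/-- PROOF. The vertices `p_t = p * θ (mk (l.take t))` are distinct for `0 ≤ t ≤ l.length` (for `s < t`,
`θ (mk ((l.drop s).take (t-s))) ≠ 1`: a nonempty infix of a reduced word is reduced, so `≠ 1`, of norm `≤ m`). The edge
number `t` (`0 ≤ t < l.length`) joins `p_t` and `p_{t+1}`: it is `(c, p_t)` if `e_t = (c, true)` and `(c, p_{t+1})` if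
`e_t = (c, false)`. If the edges `t < t'` agree then their base points agree, so `t' = t + 1`, the base point is `p_{t+1}`,
`e_t = (c, false)`, `e_{t+1} = (c, true)`, contradicting that `l` is reduced. [Induction on `l` may be easier: the
first edge of `e :: l` is not among `edgesOf (gnb p e) l`.] -/
theorem edgesOf_nodup (m : ℕ) (hθ : ∀ w : FreeGroup Bool, w ≠ 1 → w.norm ≤ m → θ w ≠ 1)
    (p : P) (l : List (Bool × Bool)) (hl : IsReduced l) (hm : l.length ≤ m) :
    (edgesOf θ p l).Nodup := by
  induction l generalizing p with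
  | nil => exact List.nodup_nil
  | cons e l ih =>
    rw [edgesOf, List.nodup_cons]
    have hl' : IsReduced l := hl.infix ⟨[e], [], by simp⟩
    have hm' : l.length + 1 ≤ m := by simpa using hm
    refine ⟨fun hmem => ?_, ih (gnb θ p e) hl' (by omega)⟩
    obtain ⟨l₁, f, l₂, h1, h2⟩ := mem_edgesOf θ hmem
    have hlen : l₁.length + 2 ≤ m := by
      rw [h1] at hm'
      simp only [List.length_append, List.length_cons] at hm'
      omega
    have key := theta_ne_one θ m hθ
    have r1 : IsReduced (e :: l₁) := hl.infix ⟨[], f :: l₂, by rw [h1]; simp⟩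
    have r2 : IsReduced (e :: (l₁ ++ [f])) := hl.infix ⟨[], l₂, by rw [h1]; simp⟩
    have r3 : IsReduced l₁ := hl.infix ⟨[e], f :: l₂, by rw [h1]; simp⟩
    have r4 : IsReduced (l₁ ++ [f]) := hl.infix ⟨[e], l₂, by rw [h1]; simp⟩
    have e1 : gnb θ p e * θ (mk l₁) = p * θ (mk (e :: l₁)) := by
      unfold gnb
      rw [mul_assoc, ← MonoidHom.map_mul, mul_mk]
      rfl
    have e2 : gnb θ p e * θ (mk l₁) * θ (mk [f]) = p * θ (mk (e :: (l₁ ++ [f]))) := by
      unfold gnb
      rw [mul_assoc, mul_assoc, ← MonoidHom.map_mul, ← MonoidHom.map_mul, mul_mk, mul_mk]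
      rfl
    have e3 : gnb θ p e * θ (mk l₁) * θ (mk [f]) = gnb θ p e * θ (mk (l₁ ++ [f])) := by
      rw [mul_assoc, ← MonoidHom.map_mul, mul_mk]
    unfold edge at h2
    have h3 : e.1 = f.1 := congrArg (fun z : Bool × P => z.1) h2
    have h4 := congrArg (fun z : Bool × P => z.2) h2
    simp only [gnb] at h4
    rcases he : e.2 with _ | _ <;> rcases hf : f.2 with _ | _
    · -- e.2 = false, f.2 = false
      simp only [he, hf, Bool.false_eq_true, if_false] at h4
      have h5 : gnb θ p e = gnb θ p e * θ (mk (l₁ ++ [f])) := by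
        rw [← e3]
        exact h4
      refine key _ r4 ?_ (by simp) (mul_eq_left.1 h5.symm)
      simp only [List.length_append, List.length_cons, List.length_nil]
      omega
    · -- e.2 = false, f.2 = true
      simp only [he, hf, Bool.false_eq_true, if_false, if_true] at h4
      have h5 : gnb θ p e = gnb θ p e * θ (mk l₁) := h4
      by_cases h0 : l₁ = []
      · rw [h0, List.nil_append] at h1
        rw [h1, isReduced_cons_cons] at hl
        have := hl.1 h3
        rw [he, hf] at this
        exact absurd this (by simp)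
      · exact key _ r3 (by omega) h0 (mul_eq_left.1 h5.symm)
    · -- e.2 = true, f.2 = false
      simp only [he, hf, Bool.false_eq_true, if_false, if_true] at h4
      have h5 : p = p * θ (mk (e :: (l₁ ++ [f]))) := by
        rw [← e2]
        exact h4
      refine key _ r2 ?_ (by simp) (mul_eq_left.1 h5.symm)
      simp only [List.length_append, List.length_cons, List.length_nil]
      omega
    · -- both true
      simp only [he, hf, if_true] at h4
      have h5 : p = p * θ (mk (e :: l₁)) := by
        rw [← e1]
        exact h4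
      refine key _ r1 ?_ (by simp) (mul_eq_left.1 h5.symm)
      simp only [List.length_cons]
      omega

theorem edgesOf_length (p : P) (l : List (Bool × Bool)) :
    (edgesOf θ p l).length = l.length := by
  induction l generalizing p with
  | nil => rfl
  | cons e l ih => rw [edgesOf, List.length_cons, ih, List.length_cons]

/-- PROOF: a readable word is the word of labels of the walk with directions `(s.1.1, s.2)`; if the
letters `s, s'` are consecutive, `s.1.1 = s'.1.1`, `s.2 ≠ s'.2` then (`edge_gnb`) the two edges are the same, so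
`s.1.2 = s'.1.2` and the word was not reduced. -/
theorem reads_gPA [Fintype P] [DecidableEq P] {p q : P} {w : List ((Bool × Fin K) × Bool)}
    (h : (gPA θ σ).Reads p w q) :
    (edgesOf θ p (w.map fun s => (s.1.1, s.2))).map σ = w.map (fun s => s.1.2) ∧
      (IsReduced w → IsReduced (w.map fun s => ((s.1.1, s.2) : Bool × Bool))) := by
  induction w generalizing p with
  | nil => exact ⟨rfl, fun _ => IsReduced.nil⟩
  | cons s w ih =>
    obtain ⟨c, h1, h2⟩ := h
    have h1' : (if σ (edge θ p (s.1.1, s.2)) = s.1.2 then
      some (gnb θ p (s.1.1, s.2)) else none) = some (show P from c) := h1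
    split_ifs at h1' with h3
    have h4 : gnb θ p (s.1.1, s.2) = (show P from c) := Option.some.inj h1'
    have h2' : (gPA θ σ).Reads (gnb θ p (s.1.1, s.2) : P) w q := by
      rw [h4]
      exact h2
    obtain ⟨ih1, ih2⟩ := ih h2'
    refine ⟨?_, fun hr => ?_⟩
    · rw [List.map_cons, edgesOf, List.map_cons, ih1, h3, List.map_cons]
    · cases w with
      | nil => exact IsReduced.singleton
      | cons s' w =>
        rw [List.map_cons, List.map_cons, isReduced_cons_cons]
        rw [List.map_cons] at ih2
        rw [isReduced_cons_cons] at hr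
        refine ⟨fun h5 => ?_, ih2 hr.2⟩
        by_contra h6
        have h5' : s.1.1 = s'.1.1 := h5
        have h6' : s.2 ≠ s'.2 := h6
        apply h6'
        apply hr.1
        have h7 : ((s'.1.1, s'.2) : Bool × Bool) = invL (s.1.1, s.2) := by
          unfold invL
          refine Prod.ext h5'.symm ?_
          show s'.2 = !s.2
          revert h6'
          cases s.2 <;> cases s'.2 <;> simp
        rw [List.map_cons, edgesOf, List.map_cons, List.map_cons] at ih1
        have h8 := (List.cons.inj ih1).1
        rw [h7, edge_gnb, h3] at h8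
        exact Prod.ext h5' h8

end

end Crest.Agent.FS
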