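import Crest.Agent.FS.Free

/-!
CHUNK FINAPP (medium): finite rank operators are approximated by operators with values in the span of finitely many points.
-/

set_option autoImplicit false

namespace Crest.Agent.FS

open Crest.AnalysisR

/-- PROOF. Basis `v_1, .., v_N` of the range `V` of `T` (`Module.finBasis`), coordinates `ψ_i : V → ℝ` are continuous (finite dimension), `T u = ∑ ψ_i (T u) v_i`.
Choose molecules `a_i` with `‖v_i - mol a_i‖ ≤ δ` (`mol_dense`), `δ` small, `S` = union of the supports, `φ s u = ∑_i ψ_i (T u) a_i s`. -/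
theorem exists_fin_approx (P : PointedMetric) (T : P.FreeSpace →L[ℝ] P.FreeSpace)
    (hT : FiniteDimensional ℝ (LinearMap.range T.toLinearMap)) {η : ℝ} (hη : 0 < η) :
    ∃ (S : Finset P.M) (φ : P.M → (P.FreeSpace →L[ℝ] ℝ)),
      ∀ u, ‖T u - ∑ s ∈ S, φ s u • del P s‖ ≤ η * ‖u‖ := by
  classical
  let V : Submodule ℝ P.FreeSpace := LinearMap.range T.toLinearMap
  have : FiniteDimensional ℝ V := hT
  let T' : P.FreeSpace →L[ℝ] V := T.codRestrict V (fun u => ⟨u, rfl⟩)
  have hT' : ∀ u, ((T' u : V) : P.FreeSpace) = T u := fun u => rfl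
  let b := Module.finBasis ℝ V
  let ψ : Fin (Module.finrank ℝ V) → (P.FreeSpace →L[ℝ] ℝ) := fun i =>
    (LinearMap.toContinuousLinearMap (b.coord i)).comp T'
  have hψ : ∀ i u, ψ i u = b.repr (T' u) i := fun i u => rfl
  have hTu : ∀ u, T u = ∑ i, ψ i u • ((b i : V) : P.FreeSpace) := by
    intro u
    have h := b.sum_repr (T' u)
    have h2 := congrArg (fun v : V => (v : P.FreeSpace)) h
    simp only [Submodule.coe_sum, Submodule.coe_smul] at h2
    rw [← hT' u, ← h2]
    rfl
  set C : ℝ := ∑ i, ‖ψ i‖ with hC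
  have hC0 : 0 ≤ C := Finset.sum_nonneg fun i _ => norm_nonneg _
  have hδ : 0 < η / (C + 1) := by positivity
  choose a ha using fun i => mol_dense P ((b i : V) : P.FreeSpace) hδ
  refine ⟨Finset.univ.biUnion fun i => (a i).support, fun s => ∑ i, a i s • ψ i, fun u => ?_⟩
  have hsum : ∑ s ∈ Finset.univ.biUnion (fun i => (a i).support),
      (∑ i, a i s • ψ i) u • del P s = ∑ i, ψ i u • mol P (a i) := by
    have h1 : ∀ s, (∑ i, a i s • ψ i) u • del P s = ∑ i, ψ i u • (a i s • del P s) := by
      intro s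
      rw [ContinuousLinearMap.sum_apply, Finset.sum_smul]
      refine Finset.sum_congr rfl fun i _ => ?_
      rw [ContinuousLinearMap.smul_apply, smul_eq_mul, smul_smul, mul_comm]
    simp only [h1]
    rw [Finset.sum_comm]
    refine Finset.sum_congr rfl fun i _ => ?_
    rw [← Finset.smul_sum, mol_eq_sum]
    congr 1
    symm
    refine Finset.sum_subset (Finset.subset_biUnion_of_mem (fun i => (a i).support)
      (Finset.mem_univ i)) fun x _ hx => ?_
    rw [Finsupp.notMem_support_iff.mp hx, zero_smul]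
  rw [hsum, hTu u, ← Finset.sum_sub_distrib]
  calc ‖∑ i, (ψ i u • ((b i : V) : P.FreeSpace) - ψ i u • mol P (a i))‖
      ≤ ∑ i, ‖ψ i u • ((b i : V) : P.FreeSpace) - ψ i u • mol P (a i)‖ := norm_sum_le _ _
    _ ≤ ∑ i, ‖ψ i‖ * (‖u‖ * (η / (C + 1))) := by
        refine Finset.sum_le_sum fun i _ => ?_
        rw [← smul_sub, norm_smul]
        have h1 := (ψ i).le_opNorm u
        have h2 := ha i
        calc ‖ψ i u‖ * ‖((b i : V) : P.FreeSpace) - mol P (a i)‖
            ≤ (‖ψ i‖ * ‖u‖) * (η / (C + 1)) :=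
              mul_le_mul h1 h2 (norm_nonneg _) (by positivity)
          _ = _ := by ring
    _ = C * (‖u‖ * (η / (C + 1))) := by rw [← Finset.sum_mul]
    _ = (C / (C + 1)) * (η * ‖u‖) := by ring
    _ ≤ 1 * (η * ‖u‖) := by
        refine mul_le_mul_of_nonneg_right ?_ (by positivity)
        rw [div_le_one (by positivity)]
        linarith
    _ = η * ‖u‖ := one_mul _

end Crest.Agent.FS
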