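import Mathlib
import Crest.Prelude.Def_LipschitzFree

/-!
CHUNK FREE (medium): basic facts on the free space.
-/

set_option autoImplicit false

namespace Crest.Agent.FS

open Crest.AnalysisR

variable (P : PointedMetric)

/-- `C`-Lipschitz functions vanishing at the base point -/
def Lp (C : ℝ) (f : P.M → ℝ) : Prop :=
  f P.base = 0 ∧ ∀ x y, |f x - f y| ≤ C * P.metric.dist x y

/-- the point molecules -/
noncomputable def mol (a : P.M →₀ ℝ) : P.FreeSpace :=
  ((show P.Mol from a) : UniformSpace.Completion P.Mol)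

noncomputable def del (x : P.M) : P.FreeSpace := mol P (Finsupp.single x 1)

theorem mol_add (a b : P.M →₀ ℝ) : mol P (a + b) = mol P a + mol P b :=
  UniformSpace.Completion.coe_add (show P.Mol from a) (show P.Mol from b)

theorem mol_smul (c : ℝ) (a : P.M →₀ ℝ) : mol P (c • a) = c • mol P a :=
  UniformSpace.Completion.coe_smul c (show P.Mol from a)

/-- `mol` as a linear map -/
noncomputable def molL : (P.M →₀ ℝ) →ₗ[ℝ] P.FreeSpace where
  toFun := mol P
  map_add' := mol_add P
  map_smul' := mol_smul P

theorem molL_apply (a : P.M →₀ ℝ) : molL P a = mol P a := rfl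

theorem molL_denseRange : DenseRange (molL P) :=
  UniformSpace.Completion.denseRange_coe (α := P.Mol)

/-- linearity of `mol` -/
theorem mol_eq_sum (a : P.M →₀ ℝ) : mol P a = ∑ x ∈ a.support, a x • del P x := by
  have h : a = ∑ x ∈ a.support, a x • Finsupp.single x (1 : ℝ) := by
    conv_lhs => rw [← Finsupp.sum_single a]
    unfold Finsupp.sum
    refine Finset.sum_congr rfl fun x _ => ?_
    rw [Finsupp.smul_single, smul_eq_mul, mul_one]
  conv_lhs => rw [h, ← molL_apply, map_sum]
  refine Finset.sum_congr rfl fun x _ => ?_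
  rw [map_smul]
  rfl

theorem mol_dense (u : P.FreeSpace) {ε : ℝ} (hε : 0 < ε) : ∃ a : P.M →₀ ℝ, ‖u - mol P a‖ ≤ ε := by
  obtain ⟨a, ha⟩ := (molL_denseRange P).exists_dist_lt u hε
  refine ⟨a, ?_⟩
  rw [← dist_eq_norm]
  exact ha.le

theorem norm_mol (a : P.M →₀ ℝ) : ‖mol P a‖ = P.freeNorm a :=
  UniformSpace.Completion.norm_coe (show P.Mol from a)

theorem pairing_single (x : P.M) (r : ℝ) (f : P.M → ℝ) :
    P.pairing (show P.Mol from Finsupp.single x r) f = r * f x := by
  unfold PointedMetric.pairing PointedMetric.coeffs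
  exact Finsupp.sum_single_index (by simp)

/-- `pairing` as a linear map -/
noncomputable def prL (f : P.M → ℝ) : (P.M →₀ ℝ) →ₗ[ℝ] ℝ where
  toFun a := P.pairing (show P.Mol from a) f
  map_add' a b := P.pairing_add (show P.Mol from a) (show P.Mol from b) f
  map_smul' c a := P.pairing_smul c (show P.Mol from a) f

theorem abs_pairing_le_of_lip {C : ℝ} (hC : 0 ≤ C) {f : P.M → ℝ} (hf : Lp P C f)
    (a : P.M →₀ ℝ) : |P.pairing (show P.Mol from a) f| ≤ C * P.freeNorm (show P.Mol from a) := by
  rcases hC.eq_or_lt with h0 | hC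
  · have h1 : f = fun _ => 0 := by
      funext x
      have h2 := hf.2 x P.base
      rw [← h0, zero_mul, hf.1, sub_zero] at h2
      exact abs_eq_zero.1 (le_antisymm h2 (abs_nonneg _))
    have h2 : P.pairing (show P.Mol from a) f = 0 := by
      rw [h1]
      unfold PointedMetric.pairing Finsupp.sum
      simp
    rw [h2, abs_zero, ← h0, zero_mul]
  · letI := P.metric
    have hg : LipschitzWith 1 (fun x => C⁻¹ * f x) := by
      refine LipschitzWith.of_dist_le_mul fun x y => ?_
      rw [NNReal.coe_one, one_mul, Real.dist_eq, ← mul_sub, abs_mul, abs_of_pos (inv_pos.2 hC)]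
      have h2 := hf.2 x y
      calc C⁻¹ * |f x - f y| ≤ C⁻¹ * (C * dist x y) :=
            mul_le_mul_of_nonneg_left h2 (inv_pos.2 hC).le
        _ = dist x y := by rw [← mul_assoc, inv_mul_cancel₀ hC.ne', one_mul]
    have hle := le_ciSup (P.freeNorm_bddAbove (show P.Mol from a))
      (⟨fun x => C⁻¹ * f x, hg, by simp [hf.1]⟩ : P.Lip1)
    have heq : P.pairing (show P.Mol from a) f =
        C * P.pairing (show P.Mol from a) (fun x => C⁻¹ * f x) := by
      unfold PointedMetric.pairing
      rw [Finsupp.mul_sum]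
      refine Finsupp.sum_congr fun x _ => ?_
      field_simp
    rw [heq, abs_mul, abs_of_pos hC]
    exact mul_le_mul_of_nonneg_left hle hC.le

/-- PROOF: for `C = 0` `f = 0`; otherwise `f / C` is in `Lip1`, the functional `a ↦ pairing a f` on molecules is bounded by `C * freeNorm`; extend to the
completion. -/
theorem exists_ev {C : ℝ} (hC : 0 ≤ C) {f : P.M → ℝ} (hf : Lp P C f) :
    ∃ L : P.FreeSpace →L[ℝ] ℝ, ‖L‖ ≤ C ∧ ∀ x, L (del P x) = f x := by
  have hb : ∀ a : P.M →₀ ℝ, ‖prL P f a‖ ≤ C * ‖molL P a‖ := by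
    intro a
    rw [molL_apply, norm_mol]
    exact abs_pairing_le_of_lip P hC hf a
  refine ⟨(prL P f).extendOfNorm (molL P),
    LinearMap.opNorm_extendOfNorm_le (molL_denseRange P) hC hb, fun x => ?_⟩
  have h := LinearMap.extendOfNorm_eq (molL_denseRange P) ⟨C, hb⟩ (Finsupp.single x (1 : ℝ))
  have h2 : prL P f (Finsupp.single x 1) = f x := by
    have := pairing_single P x 1 f
    rw [one_mul] at this
    exact this
  rw [← h2]
  exact h

theorem freeNorm_le {a : P.M →₀ ℝ} {c : ℝ}
    (h : ∀ f : P.M → ℝ, Lp P 1 f → |P.pairing (show P.Mol from a) f| ≤ c) :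
    P.freeNorm (show P.Mol from a) ≤ c := by
  unfold PointedMetric.freeNorm
  refine ciSup_le fun f => h f.1 ⟨f.2.2, fun x y => ?_⟩
  letI := P.metric
  have h2 := f.2.1.dist_le_mul x y
  rw [Real.dist_eq, NNReal.coe_one] at h2
  exact h2

theorem norm_del_sub_le (x y : P.M) : ‖del P x - del P y‖ ≤ P.metric.dist x y := by
  have h : del P x - del P y = mol P (Finsupp.single x 1 - Finsupp.single y 1) := by
    rw [← molL_apply, map_sub]
    rfl
  rw [h, norm_mol]
  refine freeNorm_le P fun f hf => ?_
  have h2 : P.pairing (show P.Mol from (Finsupp.single x (1 : ℝ) - Finsupp.single y 1)) f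
      = f x - f y := by
    have h3 := map_sub (prL P f) (Finsupp.single x (1 : ℝ)) (Finsupp.single y 1)
    have h4 := pairing_single P x 1 f
    have h5 := pairing_single P y 1 f
    rw [one_mul] at h4 h5
    calc P.pairing (show P.Mol from (Finsupp.single x (1 : ℝ) - Finsupp.single y 1)) f
        = P.pairing (show P.Mol from Finsupp.single x (1 : ℝ)) f
          - P.pairing (show P.Mol from Finsupp.single y (1 : ℝ)) f := h3
      _ = f x - f y := by rw [h4, h5]
  refine le_trans (le_of_eq (congrArg abs h2)) ?_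
  have h3 := hf.2 x y
  rwa [one_mul] at h3

theorem del_base : del P P.base = 0 := by
  rw [← norm_eq_zero]
  refine le_antisymm ?_ (norm_nonneg _)
  rw [del, norm_mol]
  refine freeNorm_le P fun f hf => ?_
  rw [pairing_single, hf.1]
  simp

/-- multiplication operators. PROOF: on molecules the operator `a ↦ (x ↦ w x * a x)` has norm at most `C`
(`pairing (w a) f = pairing a (w f)`); extend it to the completion. -/
theorem exists_mult {C : ℝ} (hC : 0 ≤ C) (w : P.M → ℝ)
    (hw : ∀ f, Lp P 1 f → Lp P C (fun x => w x * f x)) :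
    ∃ R : P.FreeSpace →L[ℝ] P.FreeSpace, ‖R‖ ≤ C ∧ ∀ x, R (del P x) = w x • del P x := by
  set M : (P.M →₀ ℝ) →ₗ[ℝ] (P.M →₀ ℝ) :=
    Finsupp.linearCombination ℝ (fun x => Finsupp.single x (w x)) with hM
  have hMs : ∀ x r, M (Finsupp.single x r) = Finsupp.single x (r * w x) := by
    intro x r
    rw [hM, Finsupp.linearCombination_single, Finsupp.smul_single, smul_eq_mul]
  have hp : ∀ (a : P.M →₀ ℝ) (f : P.M → ℝ), prL P f (M a) = prL P (fun x => w x * f x) a := by
    intro a f
    induction a using Finsupp.induction_linear with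
    | zero => simp only [map_zero]
    | add a b ha hb => simp only [map_add, ha, hb]
    | single x r =>
      rw [hMs]
      have h4 := pairing_single P x (r * w x) f
      have h5 := pairing_single P x r (fun x => w x * f x)
      calc prL P f (Finsupp.single x (r * w x)) = r * w x * f x := h4
        _ = r * (w x * f x) := by ring
        _ = prL P (fun x => w x * f x) (Finsupp.single x r) := h5.symm
  have hb : ∀ a : P.M →₀ ℝ, ‖(molL P ∘ₗ M) a‖ ≤ C * ‖molL P a‖ := by
    intro a
    rw [LinearMap.comp_apply, molL_apply, molL_apply, norm_mol, norm_mol]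
    refine freeNorm_le P fun f hf => ?_
    have h := abs_pairing_le_of_lip P hC (hw f hf) a
    have h2 := hp a f
    calc |P.pairing (show P.Mol from (M a)) f| = |prL P f (M a)| := rfl
      _ = |prL P (fun x => w x * f x) a| := by rw [h2]
      _ ≤ _ := h
  refine ⟨(molL P ∘ₗ M).extendOfNorm (molL P),
    LinearMap.opNorm_extendOfNorm_le (molL_denseRange P) hC hb, fun x => ?_⟩
  have h := LinearMap.extendOfNorm_eq (molL_denseRange P) ⟨C, hb⟩ (Finsupp.single x (1 : ℝ))
  have h2 : (molL P ∘ₗ M) (Finsupp.single x (1 : ℝ)) = w x • del P x := by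
    rw [LinearMap.comp_apply, hMs, one_mul, molL_apply, del, ← mol_smul, Finsupp.smul_single,
      smul_eq_mul, mul_one]
  rw [← h2]
  exact h

end Crest.Agent.FS
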