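import Crest.Agent.FS.Ball

/-!
CHUNK GIRTH (medium): finite quotients of the free group without short relations.
-/

set_option autoImplicit false

namespace Crest.Agent.FS

open FreeGroup

section
variable {α : Type} [Fintype α] [DecidableEq α] (n : ℕ)

private abbrev GX (α : Type) [Fintype α] [DecidableEq α] (n : ℕ) : Type :=
  {w : FreeGroup α // w.norm ≤ n}

private noncomputable def gEquiv (s : α) :
    {x : GX α n // (of s * x.1).norm ≤ n} ≃ {x : GX α n // ((of s)⁻¹ * x.1).norm ≤ n} where
  toFun x := ⟨⟨of s * x.1.1, x.2⟩, by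
    show ((of s)⁻¹ * (of s * x.1.1)).norm ≤ n
    rw [inv_mul_cancel_left]
    exact x.1.2⟩
  invFun x := ⟨⟨(of s)⁻¹ * x.1.1, x.2⟩, by
    show (of s * ((of s)⁻¹ * x.1.1)).norm ≤ n
    rw [mul_inv_cancel_left]
    exact x.1.2⟩
  left_inv x := by
    apply Subtype.ext
    apply Subtype.ext
    exact inv_mul_cancel_left _ _
  right_inv x := by
    apply Subtype.ext
    apply Subtype.ext
    exact mul_inv_cancel_left _ _

private noncomputable instance gFin : Fintype (GX α n) := (ball_finite n).fintype

private noncomputable def gPerm (s : α) : Equiv.Perm (GX α n) := by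
  classical
  exact (gEquiv n s).extendSubtype

private theorem gPerm_apply (s : α) (x : GX α n) (h : (of s * x.1).norm ≤ n) :
    (gPerm n s x).1 = of s * x.1 := by
  classical
  unfold gPerm
  rw [Equiv.extendSubtype_apply_of_mem (gEquiv n s) x h]
  rfl

private theorem gPerm_inv_apply (s : α) (x : GX α n) (h : ((of s)⁻¹ * x.1).norm ≤ n) :
    ((gPerm n s)⁻¹ x).1 = (of s)⁻¹ * x.1 := by
  have h1 : gPerm n s ⟨(of s)⁻¹ * x.1, h⟩ = x := by
    apply Subtype.ext
    rw [gPerm_apply]
    · exact mul_inv_cancel_left _ _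
    · show (of s * ((of s)⁻¹ * x.1)).norm ≤ n
      rw [mul_inv_cancel_left]
      exact x.2
  have h2 : (gPerm n s)⁻¹ x = ⟨(of s)⁻¹ * x.1, h⟩ := by
    rw [Equiv.Perm.inv_eq_iff_eq]
    exact h1.symm
  rw [h2]

private theorem gPerm_word (l : List (α × Bool)) (hl : l.length ≤ n) :
    (lift (gPerm n) (mk l) (⟨1, by simp⟩ : GX α n)).1 = mk l := by
  induction l with
  | nil =>
    have : (mk [] : FreeGroup α) = 1 := rfl
    rw [this, MonoidHom.map_one]
    rfl
  | cons t l ih =>
    have hl' : l.length ≤ n := by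
      have : (t :: l).length = l.length + 1 := rfl
      omega
    have h1 : (mk (t :: l) : FreeGroup α) = mk [t] * mk l := by rw [mul_mk]; rfl
    have h2 := ih hl'
    have h3 : (mk [t] * mk l : FreeGroup α).norm ≤ n := by
      rw [← h1]
      exact norm_mk_le.trans hl
    rw [h1, MonoidHom.map_mul, Equiv.Perm.mul_apply]
    rcases t with ⟨s, b⟩
    cases b with
    | true =>
      have h4 : (mk [(s, true)] : FreeGroup α) = of s := rfl
      rw [h4] at h3 ⊢
      rw [lift_apply_of, gPerm_apply]
      · rw [h2]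
      · rw [h2]
        exact h3
    | false =>
      have h4 : (mk [(s, false)] : FreeGroup α) = (of s)⁻¹ := rfl
      rw [h4] at h3 ⊢
      rw [MonoidHom.map_inv, lift_apply_of, gPerm_inv_apply]
      · rw [h2]
      · rw [h2]
        exact h3

end

/-- PROOF. Let `X = {w // w.norm ≤ n}` (finite, `ball_finite`). For `s : α` the map `w ↦ of s * w` from
`{w : X | (of s * w).norm ≤ n}` onto `{w : X | ((of s)⁻¹ * w).norm ≤ n}` is a bijection between subtypes of `X`; extend it to a
permutation `p s` of `X` (`Equiv.extendSubtype`). `G = Equiv.Perm X`, `π = lift p`. For a word `l` with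
`l` reduced of length `≤ n`, `π (mk l) 1 = mk l` by induction on `l` (all suffixes of `l` are in `X`; for a letter
`(s,false)` use that `p s` maps `(of s)⁻¹ * w` to `w`). So `π w ≠ 1` for `w ≠ 1`. -/
theorem exists_group (α : Type) [Fintype α] [DecidableEq α] (n : ℕ) :
    ∃ (G : Type) (_ : Group G) (_ : Fintype G) (_ : DecidableEq G) (π : FreeGroup α →* G),
      ∀ w : FreeGroup α, w ≠ 1 → w.norm ≤ n → π w ≠ 1 := by
  classical
  refine ⟨Equiv.Perm (GX α n), inferInstance, inferInstance, inferInstance, lift (gPerm n), ?_⟩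
  intro w hw hn h1
  have h2 := gPerm_word n w.toWord hn
  rw [mk_toWord, h1] at h2
  exact hw h2.symm

end Crest.Agent.FS
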