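import Crest.Agent.FS.Defs

/-!
The 4-regular partial action given by a labelled Cayley graph of a 2-generator group.
-/

set_option autoImplicit false

namespace Crest.Agent.FS

open FreeGroup

section
variable {P : Type} [Group P] (θ : FreeGroup Bool →* P) {K : ℕ} (σ : Bool × P → Fin K)

/-- the neighbour of `p` in the direction `e` -/
def gnb (p : P) (e : Bool × Bool) : P := p * θ (mk [e])

/-- the edge `(c, q)` (from `q` to `q x_c`) used when leaving `p` in the direction `e` -/
def edge (p : P) (e : Bool × Bool) : Bool × P := (e.1, if e.2 then p else gnb θ p e)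

theorem gnb_gnb (p : P) (e : Bool × Bool) : gnb θ (gnb θ p e) (invL e) = p := by
  have h : (mk [e] : FreeGroup Bool) * mk [invL e] = 1 := by
    rw [mul_mk]
    apply Quot.sound
    exact Red.Step.not (L₁ := []) (L₂ := [])
  unfold gnb
  rw [mul_assoc, ← MonoidHom.map_mul, h, MonoidHom.map_one, mul_one]

theorem edge_gnb (p : P) (e : Bool × Bool) : edge θ (gnb θ p e) (invL e) = edge θ p e := by
  unfold edge
  rw [gnb_gnb]
  rcases e with ⟨c, b⟩
  cases b <;> rfl

/-- the label of the direction `e` at `p` -/
def glab (p : P) (e : Bool × Bool) : (Bool × Fin K) × Bool := ((e.1, σ (edge θ p e)), e.2)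

/-- the labelled Cayley graph as a partial action -/
def gPA [Fintype P] [DecidableEq P] : PA (Bool × Fin K) where
  V := P
  ft := inferInstance
  de := inferInstance
  ne := ⟨1⟩
  step p s := if σ (edge θ p (s.1.1, s.2)) = s.1.2 then some (gnb θ p (s.1.1, s.2)) else none
  step_inv a b s h := by
    split_ifs at h with h1
    · have h2 : b = gnb θ a (s.1.1, s.2) := (Option.some.inj h).symm
      have h3 := edge_gnb θ a (s.1.1, s.2)
      have h4 := gnb_gnb θ a (s.1.1, s.2)
      subst h2
      have e1 : ((invL s).1.1, (invL s).2) = invL (s.1.1, s.2) := rfl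
      have e2 : (invL s).1.2 = s.1.2 := rfl
      rw [e1, e2, h3, h4, if_pos h1]

/-- it is 4-regular -/
def gReg [Fintype P] [DecidableEq P] : Reg (gPA θ σ) where
  nb := (gnb θ : P → Bool × Bool → P)
  lab := (glab θ σ : P → Bool × Bool → (Bool × Fin K) × Bool)
  step_lab a e := by
    exact if_pos rfl
  nb_inv a e := gnb_gnb θ (P := P) a e
  lab_inv a e := by
    have h := edge_gnb (P := P) θ a e
    show ((e.1, σ (edge (P := P) θ (gnb (P := P) θ a e) (invL e))), !e.2) =
      ((e.1, σ (edge (P := P) θ a e)), !e.2)
    rw [h]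
  lab_inj a e e' h := by
    have h1 : e.1 = e'.1 := congrArg (fun z => z.1.1) h
    have h2 : e.2 = e'.2 := congrArg (fun z => z.2) h
    exact Prod.ext h1 h2
  complete a b s h := by
    refine ⟨(s.1.1, s.2), ?_⟩
    have h' : (if σ (edge (P := P) θ a (s.1.1, s.2)) = s.1.2 then
      some (gnb (P := P) θ a (s.1.1, s.2)) else none) = some (show P from b) := h
    split_ifs at h' with h1
    · show s = ((s.1.1, σ (edge (P := P) θ a (s.1.1, s.2))), s.2)
      rw [h1]

/-- the edges used by the walk with directions `l` from `p` -/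
def edgesOf : P → List (Bool × Bool) → List (Bool × P)
  | _, [] => []
  | p, e :: l => edge θ p e :: edgesOf (gnb θ p e) l

end

end Crest.Agent.FS
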