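import Crest.Agent.FS.FinApp
import Crest.Agent.FS.Space
import Crest.Agent.FS.Core

/-!
CHUNK NONBAP (medium): the bounded approximation property fails.
-/

set_option autoImplicit false

namespace Crest.Agent.FS

open Crest.AnalysisR

variable {α : Type} [Fintype α] [DecidableEq α] (D : SpData α)

/-- PROOF. Let `lam` be the constant; take `k : ℕ` with `lam ≤ k`. `K = {del (some ⟨k, star g⟩) | g}` (finite), `ε = 1/2`: `T` of finite rank, `‖T‖ ≤ lam`. `η = 1 / (2 (r + ρ))`,
`r = rr k`, `ρ = rho k`; `S, φ` from `exists_fin_approx`; `T' u = ∑ φ s u • del s`. Apply `core` with `lam := k + 1`, the finite set of the `z` with `some ⟨k, z⟩ ∈ S` and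
`μ x z = φ (some ⟨k, z⟩) (del (some ⟨k, x⟩))`. For `h` with `Adm c h` let `f = D.ext k h` (`lip_ext`: `Lp D.P c f`), `L` the functional of `exists_ev`, `‖L‖ ≤ c`. Then
`∑_z μ x z h z = ∑_{s ∈ S} φ s (del x) f s = L (T' (del x))`. `H1`: `≤ c (lam + η) dist ≤ c (k+1)`. `H2`: `L (T' δ_x) - f t = L (T' (δ_x - δ_t)) + L (T' δ_t - T δ_t) + L (T δ_t - δ_t)`, at most
`c ((lam + η) r + η ρ + 1/2) ≤ c (k + 1) r`. (Distances: `Con.d_le_of_E`.) -/
theorem SpData.not_hasBAP : ¬ HasBAP D.P.FreeSpace := by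
  classical
  rintro ⟨lam, hlam⟩
  obtain ⟨k, hk⟩ := exists_nat_ge lam
  set K : Set D.P.FreeSpace := Set.range (fun g : D.G k => del D.P (some ⟨k, star D.F g⟩)) with hK
  have hKc : IsCompact K := (Set.finite_range _).isCompact
  obtain ⟨T, hfin, hTn, hT⟩ := hlam K hKc (1/2) (by norm_num)
  set r : ℝ := (rr k : ℝ) with hr
  set ρ : ℝ := (rho k : ℝ) with hρ
  have hr1 : (1:ℝ) ≤ r := by
    rw [hr]; exact_mod_cast (show 1 ≤ rr k by unfold rr; omega)
  have hρ1 : (1:ℝ) ≤ ρ := by
    rw [hρ]; exact_mod_cast (show 1 ≤ rho k by unfold rho; omega)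
  set η : ℝ := 1 / (2 * (r + ρ)) with hη
  have hη0 : 0 < η := by rw [hη]; positivity
  have hηs : η * (r + ρ) = 1/2 := by
    rw [hη]; field_simp
  have hη1 : η ≤ 1 := by
    nlinarith
  obtain ⟨S, φ, hφ⟩ := exists_fin_approx D.P T hfin hη0
  -- the embedding of the piece
  let em : Pt D.F (D.G k) → D.P.M := fun z => (some ⟨k, z⟩ : D.M)
  have hem : Function.Injective em := by
    intro a b h
    have h' : (some ⟨k, a⟩ : D.M) = some ⟨k, b⟩ := h
    simpa using h'
  -- approximating operator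
  have key : ∀ (c : ℝ) (h : Pt D.F (D.G k) → ℝ), 0 ≤ c → Adm D.F (D.π k) (rr k) (rho k) c h →
      ∃ L : D.P.FreeSpace →L[ℝ] ℝ, ‖L‖ ≤ c ∧ (∀ z, L (del D.P (em z)) = h z) ∧
        ∀ u, L (∑ s ∈ S, φ s u • del D.P s) =
          ∑ z ∈ S.preimage em hem.injOn, φ (em z) u * h z := by
    intro c h hc hA
    have hLp : Lp D.P c (D.ext k h) := by
      refine ⟨rfl, fun x y => ?_⟩
      exact D.lip_ext k c hc h hA x y
    obtain ⟨L, hL, hL'⟩ := exists_ev D.P hc hLp
    refine ⟨L, hL, fun z => ?_, fun u => ?_⟩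
    · rw [hL']; exact D.ext_some k h z
    · rw [map_sum]
      have h2 := Finset.sum_preimage em S hem.injOn
        (fun s => φ s u * D.ext k h s) (by
          intro s hs hns
          have : D.ext k h s = 0 := by
            rcases s with _ | ⟨k', x⟩
            · rfl
            · have hne : ¬ k' = k := by
                intro e
                subst e
                exact hns ⟨x, rfl⟩
              show (if e : k' = k then h (e ▸ x) else 0) = 0
              rw [dif_neg hne]
          rw [this, mul_zero])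
      rw [show (∑ z ∈ S.preimage em hem.injOn, φ (em z) u * h z)
          = ∑ z ∈ S.preimage em hem.injOn, φ (em z) u * D.ext k h (em z) from
          Finset.sum_congr rfl (fun z _ => by rw [show D.ext k h (em z) = h z from D.ext_some k h z])]
      refine Eq.trans ?_ h2.symm
      refine Finset.sum_congr rfl (fun s _ => ?_)
      rw [map_smul, hL', smul_eq_mul]
  -- norm of the approximating operator
  have hbd : ∀ u, ‖∑ s ∈ S, φ s u • del D.P s‖ ≤ (k + η) * ‖u‖ := by
    intro u
    have h1 := hφ u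
    have h2 : ‖T u‖ ≤ k * ‖u‖ := (T.le_opNorm u).trans
      (mul_le_mul_of_nonneg_right (hTn.trans hk) (norm_nonneg _))
    have h3 : ‖∑ s ∈ S, φ s u • del D.P s‖ ≤ ‖T u‖ + ‖T u - ∑ s ∈ S, φ s u • del D.P s‖ := by
      have := norm_sub_norm_le (∑ s ∈ S, φ s u • del D.P s) (T u)
      rw [norm_sub_rev] at this
      linarith
    linarith
  have happ : ∀ (L : D.P.FreeSpace →L[ℝ] ℝ) (c : ℝ), ‖L‖ ≤ c → ∀ u B, ‖u‖ ≤ B → |L u| ≤ c * B := by
    intro L c hL u B hB
    calc |L u| = ‖L u‖ := (Real.norm_eq_abs _).symm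
      _ ≤ ‖L‖ * ‖u‖ := L.le_opNorm u
      _ ≤ c * B := mul_le_mul hL hB (norm_nonneg _) ((norm_nonneg _).trans hL)
  have hk0 : (0:ℝ) ≤ k := Nat.cast_nonneg k
  refine core (F := D.F) (D.π k) (k + 1) (rr k) (rho k) (by omega) rfl rfl (D.girth k)
    (S.preimage em hem.injOn) (fun x z => φ (em z) (del D.P (em x))) ?_ ?_
  · intro i a b g s hs c h hc hA
    obtain ⟨L, hL, hLz, hLu⟩ := key c h hc hA
    set x : Pt D.F (D.G k) := ⟨i, (a, g)⟩ with hx
    set x' : Pt D.F (D.G k) := ⟨i, (b, g * D.π k (FreeGroup.mk [s]))⟩ with hx'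
    have e1 : ∑ z ∈ S.preimage em hem.injOn,
        (φ (em z) (del D.P (em x)) - φ (em z) (del D.P (em x'))) * h z =
        L (∑ s ∈ S, φ s (del D.P (em x) - del D.P (em x')) • del D.P s) := by
      rw [hLu]
      exact Finset.sum_congr rfl (fun z _ => by rw [map_sub])
    rw [e1]
    have hd : ‖del D.P (em x) - del D.P (em x')‖ ≤ 1 :=
      (norm_del_sub_le D.P (em x) (em x')).trans
        (Con.d_le_of_E D.con (SpData.EP.step k i a b g s hs))
    have := happ L c hL _ (k + η) ((hbd _).trans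
      (by nlinarith [norm_nonneg (del D.P (em x) - del D.P (em x'))] ))
    refine this.trans ?_
    push_cast
    nlinarith
  · intro x c h hc hA
    obtain ⟨L, hL, hLz, hLu⟩ := key c h hc hA
    set t : Pt D.F (D.G k) := star D.F x.2.2 with ht
    have e1 : ∑ z ∈ S.preimage em hem.injOn, φ (em z) (del D.P (em x)) * h z =
        L (∑ s ∈ S, φ s (del D.P (em x)) • del D.P s) := (hLu _).symm
    have hd : ‖del D.P (em x) - del D.P (em t)‖ ≤ r :=
      (norm_del_sub_le D.P (em x) (em t)).trans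
        (Con.d_le_of_E D.con (SpData.EP.lab k x))
    have hdt : ‖del D.P (em t)‖ ≤ ρ := by
      have h0 : ‖del D.P (em t) - del D.P D.P.base‖ ≤ ρ :=
        (norm_del_sub_le D.P (em t) D.P.base).trans
          (Con.d_le_of_E D.con (SpData.EP.base k t))
      rwa [del_base, sub_zero] at h0
    have hTt : ‖T (del D.P (em t)) - del D.P (em t)‖ ≤ 1/2 := hT _ ⟨x.2.2, rfl⟩
    have hsplit : L (∑ s ∈ S, φ s (del D.P (em x)) • del D.P s) - h t =
        L (∑ s ∈ S, φ s (del D.P (em x) - del D.P (em t)) • del D.P s)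
        - L (T (del D.P (em t)) - ∑ s ∈ S, φ s (del D.P (em t)) • del D.P s)
        + L (T (del D.P (em t)) - del D.P (em t)) := by
      have : ∑ s ∈ S, φ s (del D.P (em x) - del D.P (em t)) • del D.P s =
          ∑ s ∈ S, φ s (del D.P (em x)) • del D.P s -
          ∑ s ∈ S, φ s (del D.P (em t)) • del D.P s := by
        rw [← Finset.sum_sub_distrib]
        exact Finset.sum_congr rfl (fun s _ => by rw [map_sub, sub_smul])
      rw [this, map_sub, map_sub, map_sub, ← hLz t]
      ring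
    show |∑ z ∈ S.preimage em hem.injOn, φ (em z) (del D.P (em x)) * h z - h t| ≤ _
    rw [e1, hsplit]
    have b1 := happ L c hL _ ((k + η) * r) ((hbd (del D.P (em x) - del D.P (em t))).trans
      (mul_le_mul_of_nonneg_left hd (by positivity)))
    have b2 := happ L c hL _ (η * ρ) ((hφ (del D.P (em t))).trans
      (mul_le_mul_of_nonneg_left hdt hη0.le))
    have b3 := happ L c hL _ (1/2) hTt
    have b4 : ∀ p q s : ℝ, |p - q + s| ≤ |p| + |q| + |s| := fun p q s =>
      (abs_add_le _ _).trans (add_le_add (abs_sub _ _) le_rfl)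
    refine (b4 _ _ _).trans ?_
    push_cast
    have : c * ((k + η) * r) + c * (η * ρ) + c * (1/2) ≤ (k + 1) * r * c := by
      have h5 : (k + η) * r + η * ρ + 1/2 ≤ (k + 1) * r := by nlinarith
      nlinarith
    linarith

end Crest.Agent.FS
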