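import Crest.Agent.FS.Defs

/-!
CHUNK SL (medium): `SL₂(ℤ/N)` has girth `> m` for `N = 3^m + 2`.
-/

set_option autoImplicit false

namespace Crest.Agent.FS

open FreeGroup

/-- the action of a letter on integer vectors -/
private def slSt : Bool × Bool → ℤ × ℤ → ℤ × ℤ
  | (false, true), v => (v.1 + 2 * v.2, v.2)
  | (false, false), v => (v.1 - 2 * v.2, v.2)
  | (true, true), v => (v.1, v.2 + 2 * v.1)
  | (true, false), v => (v.1, v.2 - 2 * v.1)

private def slInv : Bool × Bool → ℤ × ℤ → Prop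
  | (false, true), v => (0 < v.2 ∧ v.2 < v.1) ∨ (v.1 < v.2 ∧ v.2 < 0)
  | (false, false), v => (0 < v.2 ∧ v.1 < -v.2) ∨ (v.2 < 0 ∧ -v.2 < v.1)
  | (true, true), v => (0 < v.1 ∧ v.1 < v.2) ∨ (v.2 < v.1 ∧ v.1 < 0)
  | (true, false), v => (0 < v.1 ∧ v.2 < -v.1) ∨ (v.1 < 0 ∧ -v.1 < v.2)

private def slB (B : ℤ) (v : ℤ × ℤ) : Prop :=
  -B ≤ v.1 ∧ v.1 ≤ B ∧ -B ≤ v.2 ∧ v.2 ≤ B

private theorem slInv_step (s t : Bool × Bool) (v : ℤ × ℤ) (h : s.1 = t.1 → s.2 = t.2)
    (hv : slInv t v) : slInv s (slSt s v) := by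
  obtain ⟨x, y⟩ := v
  obtain ⟨s1, s2⟩ := s
  obtain ⟨t1, t2⟩ := t
  cases s1 <;> cases s2 <;> cases t1 <;> cases t2 <;> simp only [slInv, slSt] at * <;>
    first
    | omega
    | (exfalso; simp at h)

private theorem slB_step (s : Bool × Bool) (v : ℤ × ℤ) (B : ℤ) (hv : slB B v) :
    slB (3 * B) (slSt s v) := by
  obtain ⟨x, y⟩ := v
  obtain ⟨s1, s2⟩ := s
  cases s1 <;> cases s2 <;> simp only [slB, slSt] at * <;> omega

private theorem slInv_ne (s : Bool × Bool) (v : ℤ × ℤ) (hv : slInv s v) : v.1 ≠ 0 ∧ v.2 ≠ 0 := by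
  obtain ⟨x, y⟩ := v
  obtain ⟨s1, s2⟩ := s
  cases s1 <;> cases s2 <;> simp only [slInv] at * <;> omega

private theorem sl_run (L : List (Bool × Bool)) : ∀ s, IsReduced (s :: L) →
    ∃ v0 : ℤ × ℤ, (v0 = (0, 1) ∨ v0 = (1, 0)) ∧ slInv s ((s :: L).foldr slSt v0) ∧
      slB (3 ^ (s :: L).length) ((s :: L).foldr slSt v0) := by
  induction L with
  | nil =>
    intro s _
    obtain ⟨s1, s2⟩ := s
    cases s1 <;> cases s2
    · exact ⟨(0, 1), by simp [slInv, slSt, slB]⟩
    · exact ⟨(0, 1), by simp [slInv, slSt, slB]⟩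
    · exact ⟨(1, 0), by simp [slInv, slSt, slB]⟩
    · exact ⟨(1, 0), by simp [slInv, slSt, slB]⟩
  | cons t L ih =>
    intro s hs
    rw [isReduced_cons_cons] at hs
    obtain ⟨v0, h0, h1, h2⟩ := ih t hs.2
    refine ⟨v0, h0, ?_, ?_⟩
    · rw [List.foldr_cons]
      exact slInv_step s t _ hs.1 h1
    · rw [List.foldr_cons, List.length_cons, pow_succ, mul_comm]
      exact slB_step s _ _ h2

private def slA (N : ℕ) : Matrix.SpecialLinearGroup (Fin 2) (ZMod N) :=
  ⟨!![1, 2; 0, 1], by simp [Matrix.det_fin_two]⟩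

private def slC (N : ℕ) : Matrix.SpecialLinearGroup (Fin 2) (ZMod N) :=
  ⟨!![1, 0; 2, 1], by simp [Matrix.det_fin_two]⟩

private def slLet (N : ℕ) (b : Bool) : Matrix.SpecialLinearGroup (Fin 2) (ZMod N) :=
  if b then slC N else slA N

private def slVec (N : ℕ) (v : ℤ × ℤ) : Fin 2 → ZMod N := ![(v.1 : ZMod N), (v.2 : ZMod N)]

private theorem sl_let (N : ℕ) (s : Bool × Bool) (v : ℤ × ℤ) :
    (cond s.2 (slLet N s.1) (slLet N s.1)⁻¹ : Matrix.SpecialLinearGroup (Fin 2) (ZMod N)).1.mulVec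
      (slVec N v) = slVec N (slSt s v) := by
  obtain ⟨s1, s2⟩ := s
  cases s1 <;> cases s2
  · change ((slA N)⁻¹).1.mulVec _ = _
    rw [Matrix.SpecialLinearGroup.coe_inv]
    ext i
    fin_cases i <;>
      simp [slA, slVec, slSt, Matrix.adjugate_fin_two, Matrix.mulVec, dotProduct, Fin.sum_univ_two]
    ring
  · change ((slA N)).1.mulVec _ = _
    ext i
    fin_cases i <;>
      simp [slA, slVec, slSt, Matrix.mulVec, dotProduct, Fin.sum_univ_two]
  · change ((slC N)⁻¹).1.mulVec _ = _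
    rw [Matrix.SpecialLinearGroup.coe_inv]
    ext i
    fin_cases i <;>
      simp [slC, slVec, slSt, Matrix.adjugate_fin_two, Matrix.mulVec, dotProduct, Fin.sum_univ_two]
    ring
  · change ((slC N)).1.mulVec _ = _
    ext i
    fin_cases i <;>
      simp [slC, slVec, slSt, Matrix.mulVec, dotProduct, Fin.sum_univ_two]
    ring

private theorem sl_word (N : ℕ) (L : List (Bool × Bool)) (v : ℤ × ℤ) :
    (FreeGroup.lift (slLet N) (mk L)).1.mulVec (slVec N v) = slVec N (L.foldr slSt v) := by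
  induction L with
  | nil =>
    rw [FreeGroup.lift_mk]
    simp
  | cons s L ih =>
    rw [FreeGroup.lift_mk] at ih ⊢
    rw [List.map_cons, List.prod_cons, List.foldr_cons, Matrix.SpecialLinearGroup.coe_mul,
      ← Matrix.mulVec_mulVec, ih, sl_let]

/-- PROOF. `P = Matrix.SpecialLinearGroup (Fin 2) (ZMod (3^m+2))`, at most `N^4` elements. `θ` sends `false` to
`a = (1 2; 0 1)` and `true` to `b = (1 0; 2 1)`. Let `w` be a nonempty reduced word, `w = s_k ... s_2 s_1` (apply `s_1` first, to a column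
vector), start with `v₀ = (0,1)` if `s_1 = a^±`, with `v₀ = (1,0)` if `s_1 = b^±`, computing over `ℤ`. Invariant after at least
one letter: last letter `a`: `|y| < |x|`, `0 ≤ x y`... (precisely: `a`: `|y|<|x|` and `0 < x*y` or `y = 0`..; simplest
choice of invariants: after `a`: `|y| < |x| ∧ 0 < x*y`; after `a⁻¹`: `|y| < |x| ∧ x*y < 0`; after `b`: `|x| < |y| ∧ 0 < x*y`; after `b⁻¹`:
`|x| < |y| ∧ x*y < 0`); the first letter gives `(±2,1)` resp. `(1,±2)`, and the invariants are preserved by every letter that is not the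
inverse of the previous one. Also `|x|,|y| ≤ 3^k`. At the end the vector is not `v₀` (it satisfies `x*y ≠ 0`), and the
coordinates of the difference are at most `3^m + 1 < N` in absolute value, so it is not `v₀` modulo `N` either. [It is
convenient to run the induction on lists of letters acting on pairs of integers, and only at the end
reduce mod `N`.] -/
theorem exists_small_group (m : ℕ) :
    ∃ (P : Type) (_ : Group P) (_ : Fintype P) (_ : DecidableEq P) (θ : FreeGroup Bool →* P),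
      (∀ w : FreeGroup Bool, w ≠ 1 → w.norm ≤ m → θ w ≠ 1) ∧
        Fintype.card P ≤ (3 ^ m + 2) ^ 4 := by
  classical
  obtain ⟨N, hN⟩ : ∃ N, N = 3 ^ m + 2 := ⟨_, rfl⟩
  have hN0 : N ≠ 0 := by rw [hN]; positivity
  have : NeZero N := ⟨hN0⟩
  have : Fintype (Matrix (Fin 2) (Fin 2) (ZMod N)) := inferInstance
  have : Finite (Matrix.SpecialLinearGroup (Fin 2) (ZMod N)) :=
    Finite.of_injective (fun A => A.1) Subtype.val_injective
  have : Fintype (Matrix.SpecialLinearGroup (Fin 2) (ZMod N)) := Fintype.ofFinite _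
  refine ⟨Matrix.SpecialLinearGroup (Fin 2) (ZMod N), inferInstance, inferInstance, inferInstance,
    FreeGroup.lift (slLet N), ?_, ?_⟩
  · intro w hw hwm hθ
    have hne : w.toWord ≠ [] := fun h => hw (FreeGroup.toWord_eq_nil_iff.mp h)
    obtain ⟨s, L, hL⟩ := List.exists_cons_of_ne_nil hne
    have hred : IsReduced (s :: L) := hL ▸ isReduced_toWord
    obtain ⟨v0, h0, h1, h2⟩ := sl_run L s hred
    have hlen : (s :: L).length ≤ m := by
      rw [← hL]; exact hwm
    have hmul := sl_word N (s :: L) v0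
    rw [← hL, FreeGroup.mk_toWord, hθ, hL] at hmul
    obtain ⟨v, hv⟩ : ∃ v, v = (s :: L).foldr slSt v0 := ⟨_, rfl⟩
    rw [← hv] at h1 h2 hmul
    have hpow : (3 : ℤ) ^ (s :: L).length ≤ 3 ^ m := pow_le_pow_right₀ (by norm_num) hlen
    obtain ⟨B, hB⟩ : ∃ B : ℤ, B = 3 ^ (s :: L).length := ⟨_, rfl⟩
    rw [← hB] at hpow h2
    have hN' : (N : ℤ) = 3 ^ m + 2 := by rw [hN]; push_cast; rfl
    obtain ⟨C, hC⟩ : ∃ C : ℤ, C = 3 ^ m := ⟨_, rfl⟩
    rw [← hC] at hN' hpow
    obtain ⟨hx, hy⟩ := slInv_ne s v h1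
    obtain ⟨b1, b2, b3, b4⟩ := h2
    have e : slVec N v0 = slVec N v := by
      rw [← hmul]; simp
    rcases h0 with h0 | h0
    · have e0 := congrFun e 0
      simp only [slVec, h0, Matrix.cons_val_zero, Int.cast_zero] at e0
      have := (ZMod.intCast_zmod_eq_zero_iff_dvd v.1 N).mp e0.symm
      have h3 := Int.le_of_dvd (abs_pos.mpr hx) ((dvd_abs _ _).mpr this)
      rcases abs_cases v.1 with h | h <;> omega
    · have e0 := congrFun e 1
      simp only [slVec, h0, Matrix.cons_val_one, Int.cast_zero] at e0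
      have := (ZMod.intCast_zmod_eq_zero_iff_dvd v.2 N).mp e0.symm
      have h3 := Int.le_of_dvd (abs_pos.mpr hy) ((dvd_abs _ _).mpr this)
      rcases abs_cases v.2 with h | h <;> omega
  · rw [← hN]
    calc Fintype.card (Matrix.SpecialLinearGroup (Fin 2) (ZMod N))
        ≤ Fintype.card (Matrix (Fin 2) (Fin 2) (ZMod N)) :=
          Fintype.card_le_of_injective (fun A => A.1) Subtype.val_injective
      _ = N ^ 4 := by
          rw [show Fintype.card (Matrix (Fin 2) (Fin 2) (ZMod N)) =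
            Fintype.card (Fin 2 → Fin 2 → ZMod N) from Fintype.card_congr (Equiv.refl _)]
          simp [ZMod.card, ← pow_mul]

end Crest.Agent.FS
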