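import Crest.Agent.FS.Count
import Crest.Agent.FS.Words4
import Crest.Agent.FS.SL

/-!
CHUNK SEQ (medium): the universal sequence.
-/

set_option autoImplicit false

namespace Crest.Agent.FS

open FreeGroup

/-- a regular partial action -/
structure RPA (α : Type) where
  A : PA α
  R : Reg A

/-- no common readable reduced words of some length -/
def Sep {α : Type} (x y : PA α) : Prop :=
  ∃ m, ∀ l : List (α × Bool), IsReduced l → l.length = m →
    ∀ a b c d, x.Reads a l b → y.Reads c l d → False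

theorem exists_pow_seq (N : ℕ) : ∃ m : ℕ, (3 ^ m + 2) ^ 4 * (N * 4 ^ m) < 1000 ^ m := by
  obtain ⟨k, hk⟩ := pow_unbounded_of_one_lt (81 * N) (show (1 : ℕ) < 3 by norm_num)
  refine ⟨k + 1, ?_⟩
  have h1 : 3 ^ (k + 1) + 2 ≤ 3 ^ (k + 2) := by
    have : 1 ≤ 3 ^ k := Nat.one_le_pow _ _ (by norm_num)
    rw [pow_succ, pow_succ, pow_succ]
    omega
  have h2 : (3 ^ (k + 1) + 2) ^ 4 ≤ 81 * 81 ^ (k + 1) := by
    calc (3 ^ (k + 1) + 2) ^ 4 ≤ (3 ^ (k + 2)) ^ 4 := Nat.pow_le_pow_left h1 4
      _ = 81 * 81 ^ (k + 1) := by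
        rw [← pow_mul, show (k + 2) * 4 = 4 * (k + 1) + 4 by ring, pow_add, pow_mul]
        norm_num
        ring
  calc (3 ^ (k + 1) + 2) ^ 4 * (N * 4 ^ (k + 1)) ≤ 81 * 81 ^ (k + 1) * (N * 4 ^ (k + 1)) :=
        Nat.mul_le_mul_right _ h2
    _ = 81 * N * 324 ^ (k + 1) := by
        rw [show (324 : ℕ) = 81 * 4 by norm_num, mul_pow]; ring
    _ < 3 ^ k * 324 ^ (k + 1) := Nat.mul_lt_mul_of_pos_right hk (by positivity)
    _ ≤ 3 ^ (k + 1) * 324 ^ (k + 1) :=
        Nat.mul_le_mul_right _ (Nat.pow_le_pow_right (by norm_num) (by omega))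
    _ = 972 ^ (k + 1) := by rw [← mul_pow]; norm_num
    _ ≤ 1000 ^ (k + 1) := Nat.pow_le_pow_left (by norm_num) _

/-- PROOF. `N = ∑_{x ∈ s} |x.A.V|`; choose `m` with `(3^m+2)^4 * (N * 4^m) < 1000^m` (for `m ≥ 1`: `(3^m+2)^4 ≤ (3^(m+1))^4 = 81 * 81^m`, so
`81 * N * 324^m < 1000^m` suffices, true for large `m` as `324 * 3 ≤ 1000` and `81 * N < 3^m` for large `m`). Let `R` be the set of reduced words in the
union of the sets `T` of `readable_words` (filtered by `length = m` and reduced), `exists_small_group m`, `exists_labels`. -/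
theorem exists_next (s : Finset (RPA (Bool × Fin 1000))) :
    ∃ y : RPA (Bool × Fin 1000), ∀ x ∈ s, Sep x.A y.A := by
  classical
  set N : ℕ := ∑ x ∈ s, Fintype.card x.A.V with hN
  obtain ⟨m, hm⟩ := exists_pow_seq N
  choose T hT1 hT2 using fun x : RPA (Bool × Fin 1000) => readable_words x.R m
  set R : Finset (List ((Bool × Fin 1000) × Bool)) :=
    (s.biUnion T).filter (fun w => w.length = m ∧ IsReduced w) with hR
  have hRc : R.card ≤ N * 4 ^ m := by
    refine (Finset.card_filter_le _ _).trans (Finset.card_biUnion_le.trans ?_)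
    rw [hN, Finset.sum_mul]
    exact Finset.sum_le_sum fun x _ => hT1 x
  obtain ⟨P, hP1, hP2, hP3, θ, hθ, hPc⟩ := exists_small_group m
  have hcard : Fintype.card P * R.card < 1000 ^ m :=
    lt_of_le_of_lt (Nat.mul_le_mul hPc hRc) hm
  obtain ⟨σ, hσ⟩ := exists_labels θ 1000 m (by norm_num) hθ R
    (fun w hw => (Finset.mem_filter.1 hw).2) hcard
  refine ⟨⟨gPA θ σ, gReg θ σ⟩, fun x hx => ⟨m, ?_⟩⟩
  intro l hl hlm a b c d h1 h2
  refine hσ l ?_ c d h2
  rw [hR, Finset.mem_filter]
  exact ⟨Finset.mem_biUnion.2 ⟨x, hx, hT2 x a b l h1 hlm⟩, hlm, hl⟩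

/-- one point, no letters -/
def onePA (α : Type) : PA α where
  V := Unit
  ft := inferInstance
  de := inferInstance
  ne := ⟨()⟩
  step _ _ := none
  step_inv _ _ _ h := by simp at h

/-- PROOF. `exists_seq_of_forall_finset_exists` (with `P = True`, `r x y = Sep x.A y.A`) gives `f : ℕ → RPA`; `A 0` = one point with no
letters, `A (j+1) = (f j).A`. `sep`: for `i = 0` any `m ≥ 1` works; take the maximum of 1 and the `m`'s of the pairs `(i, j)`, `i < j`: a longer reduced word
readable in both has a reduced prefix of length `m_i` readable in both (`reads_append`, `IsReduced.infix`). -/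
theorem exists_fam : Nonempty (Fam (Bool × Fin 1000)) := by
  classical
  obtain ⟨f, -, hf⟩ := exists_seq_of_forall_finset_exists (α := RPA (Bool × Fin 1000))
    (fun _ => True) (fun x y => Sep x.A y.A)
    (fun s _ => (exists_next s).imp fun y hy => ⟨trivial, hy⟩)
  let A : ℕ → PA (Bool × Fin 1000) := fun n => Nat.casesOn n (onePA _) (fun j => (f j).A)
  have key : ∀ j, ∀ i ≤ j, ∃ m, ∀ l : List ((Bool × Fin 1000) × Bool), IsReduced l →
      l.length = m → ∀ a b c d, (A i).Reads a l b → (A (j + 1)).Reads c l d → False := by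
    intro j i hij
    rcases i with _ | i
    · refine ⟨1, ?_⟩
      intro l _ hlen a b c d h1 _
      rcases l with _ | ⟨x, l⟩
      · simp at hlen
      · obtain ⟨c', hc', -⟩ := h1
        have : (none : Option Unit) = some c' := hc'
        simp at this
    · exact hf i j (by omega)
  refine ⟨⟨A, fun a s => rfl, (inferInstance : Subsingleton Unit), fun j => (f j).R, ?_⟩⟩
  intro j
  choose! M hM using key j
  refine ⟨(Finset.range (j + 1)).sup M, ?_⟩
  intro i hi l hl hlen a b c d h1 h2
  have hMi : M i ≤ l.length := by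
    rw [hlen]
    exact Finset.le_sup (f := M) (Finset.mem_range.2 (by omega))
  have e : l.take (M i) ++ l.drop (M i) = l := List.take_append_drop _ _
  rw [← e] at h1 h2
  obtain ⟨b', hb', -⟩ := (reads_append _).1 h1
  obtain ⟨d', hd', -⟩ := (reads_append _).1 h2
  refine hM i hi (l.take (M i)) (hl.infix (List.take_prefix _ _).isInfix) ?_ a b' c d' hb' hd'
  rw [List.length_take]
  omega

end Crest.Agent.FS
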