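import Crest.Agent.FS.Read
import Crest.Agent.FS.Word
import Crest.Agent.FS.Ball

/-!
CHUNK TEST (medium): the test functions are Lipschitz.
-/

set_option autoImplicit false

namespace Crest.Agent.FS

open FreeGroup Finset

variable {α : Type} [Fintype α] [DecidableEq α] {F : Fam α} {G : Type} [Group G]

theorem chi_nonneg (ρ n : ℕ) : 0 ≤ chi ρ n := by
  unfold chi
  exact le_max_left _ _

theorem chi_le_one (ρ n : ℕ) : chi ρ n ≤ 1 := by
  unfold chi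
  have h : (0 : ℝ) ≤ (n : ℝ) / ρ := by positivity
  exact max_le zero_le_one (by linarith)

theorem chi_zero (ρ : ℕ) : chi ρ 0 = 1 := by
  unfold chi
  simp

theorem chi_eq_zero {ρ n : ℕ} (hρ : 1 ≤ ρ) (h : ρ ≤ n) : chi ρ n = 0 := by
  unfold chi
  apply max_eq_left
  have h1 : (0 : ℝ) < ρ := by exact_mod_cast hρ
  have h2 : (1 : ℝ) ≤ (n : ℝ) / ρ := by
    rw [le_div_iff₀ h1, one_mul]
    exact_mod_cast h
  linarith

/-- also with `a, b` exchanged -/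
theorem chi_lip {ρ a b : ℕ} (h : a ≤ b + 1) (h' : b ≤ a + 1) :
    |chi ρ a - chi ρ b| ≤ 1 / (ρ : ℝ) := by
  unfold chi
  rw [max_comm 0 (1 - (a : ℝ) / ρ), max_comm 0 (1 - (b : ℝ) / ρ)]
  refine (abs_max_sub_max_le_abs _ _ _).trans ?_
  have h1 : (1 - (a : ℝ) / ρ) - (1 - (b : ℝ) / ρ) = ((b : ℝ) - a) / ρ := by ring
  rw [h1, abs_div, abs_of_nonneg (Nat.cast_nonneg ρ : (0 : ℝ) ≤ ρ)]
  apply div_le_div_of_nonneg_right _ (Nat.cast_nonneg ρ)
  have h2 : (a : ℝ) ≤ b + 1 := by exact_mod_cast h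
  have h3 : (b : ℝ) ≤ a + 1 := by exact_mod_cast h'
  rw [abs_le]
  constructor <;> linarith

/-- PROOF: two such words `l ≠ l'` of norm `≤ ρ + 1` would give `π (l⁻¹ l') = 1`, norm `≤ 2ρ+2`. -/
theorem rel_unique {π : FreeGroup α →* G} {ρ : ℕ}
    (hπ : ∀ w : FreeGroup α, w ≠ 1 → w.norm ≤ 2 * ρ + 2 → π w ≠ 1) {g g' : G}
    {l l' : FreeGroup α} (hl : l.norm ≤ ρ + 1) (hl' : l'.norm ≤ ρ + 1) (h : g' * π l = g)
    (h' : g' * π l' = g) : l = l' := by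
  by_contra hne
  have h1 : l⁻¹ * l' ≠ 1 := by
    intro h1
    exact hne (inv_mul_eq_one.mp h1)
  have h2 : (l⁻¹ * l').norm ≤ 2 * ρ + 2 := by
    have := FreeGroup.norm_mul_le l⁻¹ l'
    rw [FreeGroup.norm_inv_eq] at this
    omega
  apply hπ _ h1 h2
  have h3 : π l = π l' := mul_left_cancel (h.trans h'.symm)
  rw [_root_.map_mul, _root_.map_inv, h3, inv_mul_cancel]

/-- evaluation of the test function at a point whose relative word is known -/
private theorem tst_of_ball {π : FreeGroup α →* G} {ρ : ℕ}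
    (hπ : ∀ w : FreeGroup α, w ≠ 1 → w.norm ≤ 2 * ρ + 2 → π w ≠ 1) (ε : Cl F → ℝ)
    (g : G) (z : Pt F G) {l : FreeGroup α} (hl : l.norm ≤ ρ) (h : z.2.2 * π l = g) :
    tst π ρ ε g z = ε (cls z l) * chi ρ l.norm := by
  unfold tst
  rw [Finset.sum_eq_single l]
  · rw [if_pos h]
  · intro l' hl' hne
    rw [mem_ball] at hl'
    apply if_neg
    intro h'
    exact hne (rel_unique hπ (by omega) (by omega) h' h)
  · intro hl'
    exact absurd (mem_ball.mpr hl) hl'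

private theorem tst_of_not {π : FreeGroup α →* G} {ρ : ℕ} (ε : Cl F → ℝ)
    (g : G) (z : Pt F G) (h : ∀ l : FreeGroup α, l.norm ≤ ρ → z.2.2 * π l ≠ g) :
    tst π ρ ε g z = 0 := by
  unfold tst
  apply Finset.sum_eq_zero
  intro l hl
  rw [mem_ball] at hl
  exact if_neg (h l hl)

private theorem tst_of {π : FreeGroup α →* G} {ρ : ℕ} (hρ : 1 ≤ ρ)
    (hπ : ∀ w : FreeGroup α, w ≠ 1 → w.norm ≤ 2 * ρ + 2 → π w ≠ 1) (ε : Cl F → ℝ)
    (g : G) (z : Pt F G) {l : FreeGroup α} (hl : l.norm ≤ ρ + 1) (h : z.2.2 * π l = g) :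
    tst π ρ ε g z = ε (cls z l) * chi ρ l.norm := by
  by_cases h1 : l.norm ≤ ρ
  · exact tst_of_ball hπ ε g z h1 h
  · rw [chi_eq_zero hρ (by omega), mul_zero]
    apply tst_of_not
    intro l' hl' h'
    have := rel_unique hπ hl (by omega) h h'
    rw [this] at h1
    exact h1 hl'

/-- PROOF: at most one term of the sum is nonzero (`rel_unique`). -/
theorem abs_tst_le {π : FreeGroup α →* G} {ρ : ℕ}
    (hπ : ∀ w : FreeGroup α, w ≠ 1 → w.norm ≤ 2 * ρ + 2 → π w ≠ 1) {ε : Cl F → ℝ}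
    (hε : ∀ γ, |ε γ| ≤ 1) (g : G) (z : Pt F G) : |tst π ρ ε g z| ≤ 1 := by
  by_cases h : ∃ l : FreeGroup α, l.norm ≤ ρ ∧ z.2.2 * π l = g
  · obtain ⟨l, hl, h⟩ := h
    rw [tst_of_ball hπ ε g z hl h, abs_mul, abs_of_nonneg (chi_nonneg ρ l.norm)]
    calc |ε (cls z l)| * chi ρ l.norm ≤ 1 * 1 :=
          mul_le_mul (hε _) (chi_le_one _ _) (chi_nonneg _ _) zero_le_one
      _ = 1 := one_mul 1
  · push Not at h
    rw [tst_of_not ε g z h, abs_zero]
    exact zero_le_one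

/-- PROOF. Both values can be written as sums over the words `l` of norm `≤ ρ + 1` with `g' * π l = g`:
`tst .. ⟨i,(a,g')⟩ = ∑ ε (cls ⟨i,(a,g')⟩ l) chi |l|` and, substituting `l = mk [s] * l'` and with `cls_step`,
`tst .. ⟨i,(b,g' π s)⟩ = ∑ ε (cls ⟨i,(a,g')⟩ l) chi |mk [s]⁻¹ * l|` (`chi` vanishes from `ρ` on); at most one `l` occurs; `chi_lip`. -/
theorem tst_step {π : FreeGroup α →* G} {ρ : ℕ} (hρ : 1 ≤ ρ)
    (hπ : ∀ w : FreeGroup α, w ≠ 1 → w.norm ≤ 2 * ρ + 2 → π w ≠ 1) {ε : Cl F → ℝ}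
    (hε : ∀ γ, |ε γ| ≤ 1) (g : G) (i : ℕ) (a b : (F.A i).V) (g' : G) (s : α × Bool)
    (h : (F.A i).step a s = some b) :
    |tst π ρ ε g ⟨i, (a, g')⟩ - tst π ρ ε g ⟨i, (b, g' * π (mk [s]))⟩| ≤ 1 / (ρ : ℝ) := by
  by_cases h1 : ∃ l : FreeGroup α, l.norm ≤ ρ ∧ (g' * π (mk [s])) * π l = g
  · obtain ⟨l, hl, hg⟩ := h1
    have hn1 : (mk [s] * l).norm ≤ l.norm + 1 := norm_letter_mul_le l s
    have hn2 : l.norm ≤ (mk [s] * l).norm + 1 := by
      have h2 := norm_letter_mul_le (mk [s] * l) (invL s)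
      rw [mk_invL, inv_mul_cancel_left] at h2
      exact h2
    have hg2 : g' * π (mk [s] * l) = g := by
      rw [_root_.map_mul, ← mul_assoc]
      exact hg
    rw [tst_of hρ hπ ε g ⟨i, (a, g')⟩ (l := mk [s] * l) (by omega) hg2,
      tst_of_ball hπ ε g ⟨i, (b, g' * π (mk [s]))⟩ hl hg, cls_step g' (g' * π (mk [s])) h l,
      ← mul_sub, abs_mul]
    calc |ε (cls (⟨i, (b, g' * π (mk [s]))⟩ : Pt F G) l)|
            * |chi ρ (mk [s] * l).norm - chi ρ l.norm| ≤ 1 * (1 / (ρ : ℝ)) :=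
          mul_le_mul (hε _) (chi_lip hn1 hn2) (abs_nonneg _) zero_le_one
      _ = 1 / (ρ : ℝ) := one_mul _
  · push Not at h1
    rw [tst_of_not ε g ⟨i, (b, g' * π (mk [s]))⟩ h1, sub_zero]
    by_cases h2 : ∃ l : FreeGroup α, l.norm ≤ ρ ∧ g' * π l = g
    · obtain ⟨l, hl, hg⟩ := h2
      rw [tst_of_ball hπ ε g ⟨i, (a, g')⟩ hl hg]
      have hn : ρ < ((mk [s])⁻¹ * l).norm := by
        by_contra hcon
        push Not at hcon
        apply h1 _ hcon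
        rw [_root_.map_mul, _root_.map_inv, mul_assoc, mul_inv_cancel_left]
        exact hg
      have hn1 : ((mk [s])⁻¹ * l).norm ≤ l.norm + 1 := by
        have h3 := norm_letter_mul_le l (invL s)
        rw [mk_invL] at h3
        exact h3
      rw [chi_eq_zero hρ (by omega), mul_zero, abs_zero]
      positivity
    · push Not at h2
      rw [tst_of_not ε g ⟨i, (a, g')⟩ h2, abs_zero]
      positivity

/-- from `abs_tst_le`, `tst_step` -/
theorem adm_tst {π : FreeGroup α →* G} {r ρ : ℕ} (hr : 1 ≤ r) (hρ : r ≤ ρ)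
    (hπ : ∀ w : FreeGroup α, w ≠ 1 → w.norm ≤ 2 * ρ + 2 → π w ≠ 1) {ε : Cl F → ℝ}
    (hε : ∀ γ, |ε γ| ≤ 1) (g : G) : Adm F π r ρ (2 / r) (tst π ρ ε g) := by
  have hr0 : (0 : ℝ) < r := by exact_mod_cast hr
  have hrρ : (r : ℝ) ≤ ρ := by exact_mod_cast hρ
  have hρ0 : (0 : ℝ) < ρ := lt_of_lt_of_le hr0 hrρ
  refine ⟨fun x => ?_, fun x => ?_, fun i a b g' s h => ?_⟩
  · refine (abs_tst_le hπ hε g x).trans ?_
    rw [div_mul_eq_mul_div, le_div_iff₀ hr0]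
    linarith
  · rw [div_mul_cancel₀ _ hr0.ne']
    have h1 := abs_le.mp (abs_tst_le hπ hε g x)
    have h2 := abs_le.mp (abs_tst_le hπ hε g (star F x.2.2))
    rw [abs_le]
    constructor <;> linarith [h1.1, h1.2, h2.1, h2.2]
  · refine (tst_step (hr.trans hρ) hπ hε g i a b g' s h).trans ?_
    calc 1 / (ρ : ℝ) ≤ 1 / (r : ℝ) := one_div_le_one_div_of_le hr0 hrρ
      _ ≤ 2 / (r : ℝ) := div_le_div_of_nonneg_right (by norm_num) hr0.le

/-- for `ε = 1` the test function does not depend on the partial action component -/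
theorem adm_tst_one {π : FreeGroup α →* G} {r ρ : ℕ} (hr : 1 ≤ r) (hρ : r ≤ ρ)
    (hπ : ∀ w : FreeGroup α, w ≠ 1 → w.norm ≤ 2 * ρ + 2 → π w ≠ 1) (g : G) :
    Adm F π r ρ (1 / ρ) (tst π ρ (fun _ => 1) g) := by
  have hρ1 : 1 ≤ ρ := hr.trans hρ
  have hρ0 : (0 : ℝ) < ρ := by exact_mod_cast hρ1
  have hε : ∀ γ : Cl F, |(fun _ : Cl F => (1 : ℝ)) γ| ≤ 1 := fun γ => by simp
  refine ⟨fun x => ?_, fun x => ?_, fun i a b g' s h => ?_⟩
  · rw [one_div_mul_cancel hρ0.ne']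
    exact abs_tst_le hπ hε g x
  · have h1 : tst π ρ (fun _ : Cl F => (1 : ℝ)) g x
        = tst π ρ (fun _ : Cl F => (1 : ℝ)) g (star F x.2.2) := rfl
    rw [h1, sub_self, abs_zero]
    positivity
  · exact tst_step hρ1 hπ hε g i a b g' s h

theorem tst_one_star {π : FreeGroup α →* G} {ρ : ℕ}
    (hπ : ∀ w : FreeGroup α, w ≠ 1 → w.norm ≤ 2 * ρ + 2 → π w ≠ 1) (g : G) :
    tst π ρ (fun _ => 1) g (star F g) = 1 := by
  rw [tst_of_ball hπ (fun _ => 1) g (star F g) (l := 1) (by simp) (by simp [star])]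
  simp [chi_zero]

theorem adm_sign {π : FreeGroup α →* G} {r ρ : ℕ} (hr : 1 ≤ r) (hρ : 1 ≤ ρ) (h : Pt F G → ℝ)
    (hh : ∀ x, |h x| ≤ 1) : Adm F π r ρ 2 h := by
  have hr0 : (1 : ℝ) ≤ r := by exact_mod_cast hr
  have hρ0 : (1 : ℝ) ≤ ρ := by exact_mod_cast hρ
  have hd : ∀ x y, |h x - h y| ≤ 2 := by
    intro x y
    have h1 := abs_le.mp (hh x)
    have h2 := abs_le.mp (hh y)
    rw [abs_le]
    constructor <;> linarith [h1.1, h1.2, h2.1, h2.2]
  refine ⟨fun x => ?_, fun x => ?_, fun i a b g' s _ => hd _ _⟩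
  · exact (hh x).trans (by linarith)
  · exact (hd _ _).trans (by linarith)

end Crest.Agent.FS
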